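import Mathlib

/-!
# R316 / Ana / Deriv : derivatives of polynomial functions
-/

set_option autoImplicit false

namespace Crest.Agent.R316

open MvPolynomial

variable {n : ℕ}

/-- strict derivative of a polynomial function -/
theorem hasStrictFDerivAt_eval (P : MvPolynomial (Fin n) ℝ) (x : Fin n → ℝ) :
    HasStrictFDerivAt (fun x => eval x P)
      (∑ j, eval x (pderiv j P) • (ContinuousLinearMap.proj j : (Fin n → ℝ) →L[ℝ] ℝ)) x := by
  induction P using MvPolynomial.induction_on with
  | C a => simpa using hasStrictFDerivAt_const a x
  | add p q hp hq =>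
    have e : (fun x => eval x (p + q)) = (fun x => eval x p) + fun x => eval x q := by
      ext x; simp
    rw [e]
    refine (hp.add hq).congr_fderiv ?_
    simp [add_smul, Finset.sum_add_distrib]
  | mul_X p i hp =>
    have h1 : HasStrictFDerivAt (fun x : Fin n → ℝ => x i)
        (ContinuousLinearMap.proj i : (Fin n → ℝ) →L[ℝ] ℝ) x :=
      (ContinuousLinearMap.proj i : (Fin n → ℝ) →L[ℝ] ℝ).hasStrictFDerivAt
    have e : (fun x => eval x (p * X i)) = (fun x => eval x p) * fun x => x i := by
      ext x; simp
    rw [e]
    refine (hp.mul h1).congr_fderiv ?_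
    ext v
    simp only [Derivation.leibniz, smul_eq_mul, map_add, map_mul, eval_X, add_smul,
      Finset.sum_add_distrib, add_apply, sum_apply,
      smul_apply, ContinuousLinearMap.proj_apply]
    congr 1
    · rw [Finset.sum_eq_single i]
      · simp
      · intro j _ hj
        rw [pderiv_X_of_ne hj.symm]; simp
      · simp
    · rw [Finset.mul_sum]
      refine Finset.sum_congr rfl fun j _ => ?_
      ring

/-- partial derivatives vanish at a local minimum -/
theorem eval_pderiv_eq_zero_of_isLocalMin {P : MvPolynomial (Fin n) ℝ} {x : Fin n → ℝ}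
    (h : IsLocalMin (fun x => eval x P) x) (j : Fin n) : eval x (pderiv j P) = 0 := by
  have h0 := h.hasFDerivAt_eq_zero (hasStrictFDerivAt_eval P x).hasFDerivAt
  have h1 := DFunLike.congr_fun h0 (Pi.single j 1)
  simp only [sum_apply, smul_apply,
    ContinuousLinearMap.proj_apply, zero_apply, smul_eq_mul] at h1
  rw [Finset.sum_eq_single j] at h1
  · simpa using h1
  · intro i _ hi
    simp [hi]
  · simp

/-- partial derivatives do not raise the total degree -/
theorem totalDegree_pderiv_le_D {R : Type*} [CommSemiring R] {σ : Type*} (P : MvPolynomial σ R)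
    (j : σ) : (pderiv j P).totalDegree ≤ P.totalDegree := by
  classical
  rw [P.as_sum, map_sum]
  refine (totalDegree_finsetSum _ _).trans (Finset.sup_le fun s hs => ?_)
  rw [pderiv_monomial, ← P.as_sum]
  refine (totalDegree_monomial_le _ _).trans ?_
  refine le_trans ?_ (le_totalDegree hs)
  exact Finsupp.degree_mono (tsub_le_self : s - Finsupp.single j 1 ≤ s)

end Crest.Agent.R316
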