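import Crest.Agent.R316.Ana.Spec

/-!
# R316 / Ana / Disc  (task B5)
Non-vanishing statements (specialise to a diagonal system `y^k = -1`, in which all coordinates are
units in the quotient algebra).
-/

set_option autoImplicit false

namespace Crest.Agent.R316

open MvPolynomial

variable {n : ℕ}

/-- the Jacobian of the system `x_i^m = -1` is `∏ m x_i^(m-1)`. -/
theorem mjac_diag {R : Type*} [CommRing R] (m : ℕ) :
    mjac m (fun _ : Fin n => (-1 : MvPolynomial (Fin n) R)) =
      ∏ i, ((m : MvPolynomial (Fin n) R) * X i ^ (m - 1)) := by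
  unfold mjac
  rw [← Matrix.det_diagonal]
  congr 1
  ext1 i j
  rw [Matrix.of_apply, sub_neg_eq_add, map_add, pderiv_one, add_zero, Derivation.leibniz_pow,
    Matrix.diagonal_apply]
  by_cases hij : i = j
  · subst hij
    simp
  · rw [pderiv_X_of_ne hij]
    simp [hij]

/-- over any ring in which `m` is invertible the norm of the Jacobian of `x_i^m = -1` is a unit -/
theorem isUnit_mnorm_mjac_diag {R : Type*} [CommRing R] (m : ℕ) (hm : 1 ≤ m)
    (hu : IsUnit (m : R)) :
    IsUnit (mnorm m (fun _ : Fin n => (-1 : MvPolynomial (Fin n) R))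
      (mjac m (fun _ : Fin n => (-1 : MvPolynomial (Fin n) R)))) := by
  unfold mnorm
  refine IsUnit.map (Algebra.norm R) ?_
  rw [mjac_diag, map_prod]
  refine (IsUnit.prod_univ_iff).2 fun i => ?_
  rw [map_mul, map_natCast, map_pow]
  refine IsUnit.mul ?_ ?_
  · have := hu.map (algebraMap R (MQ m (fun _ : Fin n => (-1 : MvPolynomial (Fin n) R))))
    rwa [map_natCast] at this
  · refine IsUnit.pow _ ?_
    have h := mk_rel (R := R) (m := m) (g := fun _ : Fin n => (-1 : MvPolynomial (Fin n) R)) i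
    rw [map_pow, map_neg, map_one] at h
    refine IsUnit.of_mul_eq_one (-((Ideal.Quotient.mk _ (X i)) ^ (m - 1))) ?_
    have h2 := (pow_succ' (Ideal.Quotient.mk (mideal m fun _ : Fin n =>
      (-1 : MvPolynomial (Fin n) R)) (X i)) (m - 1)).symm
    rw [Nat.sub_add_cancel hm] at h2
    linear_combination (-1) * h2 - h

/-- norm of the Jacobian for the system `x_i^m = -1` over a field (or any ring where `m` is
invertible): non-zero. -/
theorem mnorm_mjac_diag {k : Type*} [Field k] [CharZero k] (m : ℕ) (hm : 1 ≤ m) :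
    mnorm m (fun _ : Fin n => (-1 : MvPolynomial (Fin n) k))
      (mjac m (fun _ : Fin n => (-1 : MvPolynomial (Fin n) k))) ≠ 0 :=
  (isUnit_mnorm_mjac_diag m hm
    (IsUnit.mk0 _ (Nat.cast_ne_zero.2 (Nat.one_le_iff_ne_zero.1 hm)))).ne_zero

/-- the outer discriminant is a non-zero polynomial in the parameters -/
theorem outDisc_ne_zero {f : Zxy n} {M : ℕ} (hM : (outQ f).totalDegree < M) :
    outDisc M f ≠ 0 := by
  intro h0
  have h := xhom_outDisc (A := ℝ) ![0, 0, 0, 0, 1] hM
  have hg : gO (![0, 0, 0, 0, 1] : Fin 5 → ℝ) f = fun _ => -1 := by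
    funext i
    rw [gO_eq]
    simp
  rw [h0, map_zero, hg] at h
  exact mnorm_mjac_diag (k := ℝ) (2 * M - 1) (by omega) h.symm

/-! ### nested limits -/

/-- a non-zero polynomial in `b` and `c` is non-zero for nested-large `b`, `c` -/
theorem eventually_eval_ne_zero {P : Polynomial (Polynomial ℝ)} (hP : P ≠ 0) :
    ∀ᶠ b : ℝ in Filter.atTop, ∀ᶠ c : ℝ in Filter.atTop,
      ((P.map (Polynomial.evalRingHom b)).eval c) ≠ 0 := by
  have hl : P.leadingCoeff ≠ 0 := Polynomial.leadingCoeff_ne_zero.2 hP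
  filter_upwards [Polynomial.eventually_atTop_not_isRoot _ hl] with b hb
  have hPb : P.map (Polynomial.evalRingHom b) ≠ 0 := by
    intro h
    apply hb
    have := congrArg (fun Q => Polynomial.coeff Q P.natDegree) h
    simpa [Polynomial.coeff_map, Polynomial.IsRoot] using this
  filter_upwards [Polynomial.eventually_atTop_not_isRoot _ hPb] with c hc
  exact hc

/-- evaluation `ℝ[b][c] → ℝ` -/
noncomputable def bcHom (b c : ℝ) : Polynomial (Polynomial ℝ) →+* ℝ :=
  (Polynomial.evalRingHom c).comp (Polynomial.mapRingHom (Polynomial.evalRingHom b))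

theorem bcHom_apply (b c : ℝ) (P : Polynomial (Polynomial ℝ)) :
    bcHom b c P = (P.map (Polynomial.evalRingHom b)).eval c := rfl

/-- the generic homomorphism `ℤ[x] → ℝ[b][c]` -/
noncomputable def genHom (x : Fin n → ℝ) : Zx n →+* Polynomial (Polynomial ℝ) :=
  (Polynomial.C.comp Polynomial.C).comp (xhom x)

theorem bcHom_comp_genHom (b c : ℝ) (x : Fin n → ℝ) : (bcHom b c).comp (genHom x) = xhom x := by
  refine RingHom.ext fun P => ?_
  simp [bcHom, genHom]

theorem innerD_zero_ne_zero (φ : Zx n →+* ℝ) (Z : ℝ) (f : Zxy n) : innerD φ 0 Z f ≠ 0 := by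
  have hg : innerG φ 0 Z f = fun _ => -1 := by
    funext i
    simp [innerG]
  unfold innerD
  rw [hg]
  refine mnorm_mjac_diag _ ?_
  have := one_le_dI n
  unfold mI
  omega

theorem exists_innerV_zero_ne_zero (φ : Zx n →+* ℝ) {f : Zxy n} (hf4 : f.totalDegree ≤ 4) :
    ∃ Z : ℝ, innerV φ 0 Z f ≠ 0 := by
  have hdI := one_le_dI n
  have hg : ∀ Z : ℝ, innerG φ 0 Z f = fun _ => -1 := by
    intro Z
    funext i
    simp [innerG]
  have hdeg : ∀ i : Fin n, ((fun _ => -1 : Fin n → MvPolynomial (Fin n) ℝ) i).totalDegree < mI n := by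
    intro i
    have := innerG_totalDegree_lt φ (0 : ℝ) 0 hf4 i
    rwa [hg 0] at this
  have hP := (mcp_monic hdeg (pen ℝ n)).ne_zero
  obtain ⟨t, ht⟩ := (Polynomial.eventually_atTop_not_isRoot _ hP).exists (f := Filter.atTop)
  refine ⟨t / (2 * dI n), ?_⟩
  unfold innerV
  rw [hg]
  have hD : (2 * (dI n : ℝ)) ≠ 0 := by
    have : (0 : ℝ) < dI n := by
      exact_mod_cast (by omega : 0 < dI n)
    positivity
  have hH : innerH φ 0 (t / (2 * dI n)) f = -(C t - pen ℝ n) := by
    unfold innerH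
    rw [map_zero, zero_mul, zero_sub, mul_div_cancel₀ _ hD]
    ring
  rw [hH]
  have : -(C t - pen ℝ n) = (-1 : MvPolynomial (Fin n) ℝ) * (C t - pen ℝ n) := by ring
  rw [this, mnorm_mul, ← mcp_eval hdeg]
  refine mul_ne_zero ?_ ht
  have h1 : mnorm (mI n) (fun _ : Fin n => (-1 : MvPolynomial (Fin n) ℝ)) (-1) *
      mnorm (mI n) (fun _ : Fin n => (-1 : MvPolynomial (Fin n) ℝ)) (-1) = 1 := by
    rw [← mnorm_mul, neg_mul_neg, one_mul, mnorm_one]
  exact left_ne_zero_of_mul_eq_one h1

/-- for every real `x`, `Q_p(x) ≠ 0` for nested-large parameters (first `R₀ > |x|`, then `Γ`, then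
`Z`; the last two parameters are irrelevant). -/
theorem eventually_QO_ne_zero {f : Zxy n} (hf4 : f.totalDegree ≤ 4) (x : Fin n → ℝ) :
    ∀ᶠ a : ℝ in Filter.atTop, ∀ᶠ b : ℝ in Filter.atTop, ∀ᶠ c : ℝ in Filter.atTop,
      ∀ d e : ℝ, eval x (QO ![a, b, c, d, e] f) ≠ 0 := by
  have key : ∀ b c : ℝ, ∀ P : Polynomial (Polynomial ℝ),
      (P.map (Polynomial.evalRingHom b)).eval c = bcHom b c P := fun _ _ _ => rfl
  have hV : innerV (genHom x) (Polynomial.C Polynomial.X) Polynomial.X f ≠ 0 := by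
    obtain ⟨Z, hZ⟩ := exists_innerV_zero_ne_zero (xhom x) hf4
    intro h
    apply hZ
    have := map_innerV (bcHom 0 Z) (genHom x) (Polynomial.C Polynomial.X) Polynomial.X hf4
    rw [h, map_zero, bcHom_comp_genHom] at this
    simpa [bcHom] using this.symm
  have hD : innerD (genHom x) (Polynomial.C Polynomial.X) Polynomial.X f ≠ 0 := by
    intro h
    have := map_innerD (bcHom 0 0) (genHom x) (Polynomial.C Polynomial.X) Polynomial.X hf4
    rw [h, map_zero, bcHom_comp_genHom] at this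
    refine innerD_zero_ne_zero (xhom x) 0 f ?_
    simpa [bcHom] using this.symm
  have hball : ∀ᶠ a : ℝ in Filter.atTop, a ^ 2 - ∑ i, x i ^ 2 ≠ 0 := by
    filter_upwards [Filter.eventually_gt_atTop (1 + ∑ i, x i ^ 2)] with a ha
    have h0 : 0 ≤ ∑ i, x i ^ 2 := Finset.sum_nonneg fun i _ => sq_nonneg _
    nlinarith
  filter_upwards [hball] with a ha
  filter_upwards [eventually_eval_ne_zero hV, eventually_eval_ne_zero hD] with b hbV hbD
  filter_upwards [hbV, hbD] with c hcV hcD
  intro d e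
  rw [eval_QO _ _ hf4]
  rw [key, map_innerV _ _ _ _ hf4, bcHom_comp_genHom] at hcV
  rw [key, map_innerD _ _ _ _ hf4, bcHom_comp_genHom] at hcD
  refine mul_ne_zero (mul_ne_zero ?_ ?_) ?_
  · simpa using ha
  · simpa [bcHom] using hcV
  · simpa [bcHom] using hcD

end Crest.Agent.R316
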