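import Crest.Agent.R316.Alg.Fam

/-!
# R316 / Ana / InnerMin  (task B2)
Elementary analysis of `y ↦ H_{p,x}(y) = 2D Z (Γ f'(x,y) - 1) + pen(y)` for real parameters.
-/

set_option autoImplicit false

namespace Crest.Agent.R316

open MvPolynomial Filter Topology

variable {n : ℕ}

theorem one_le_dI (n : ℕ) : 6 ≤ dI n := by
  have : 1 ≤ 5 ^ n := Nat.one_le_pow _ _ (by norm_num)
  unfold dI
  omega

theorem totalDegree_pderiv_le' {σ A : Type*} [CommRing A] (i : σ) (P : MvPolynomial σ A) :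
    (pderiv i P).totalDegree ≤ P.totalDegree := by
  classical
  conv_lhs => rw [P.as_sum, map_sum]
  refine (totalDegree_finsetSum _ _).trans ?_
  refine Finset.sup_le fun s hs => ?_
  rw [pderiv_monomial]
  refine (totalDegree_monomial_le _ _).trans ?_
  refine le_trans ?_ (le_totalDegree hs)
  apply Finsupp.sum_le_sum_index
  · exact tsub_le_self
  · intro j _; exact fun a b h => h
  · intro j _; rfl

theorem map_fp_totalDegree_le {A : Type*} [CommRing A] (φ : Zx n →+* A) {f : Zxy n}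
    (hf : f.totalDegree ≤ 4) : (map φ (fp f)).totalDegree ≤ 6 * 5 ^ n + 4 := by
  have h1 : (map φ (fp f)).totalDegree ≤ (fp f).totalDegree :=
    Finset.sup_mono (support_map_subset φ (fp f))
  refine h1.trans ?_
  unfold fp
  refine (totalDegree_mul _ _).trans ?_
  have h2 : (1 + ∑ j, X j ^ 2 : Zxy n).totalDegree ≤ 2 := by
    refine (totalDegree_add _ _).trans (max_le (by simp) ?_)
    refine (totalDegree_finsetSum _ _).trans (Finset.sup_le fun j _ => ?_)
    refine (totalDegree_pow _ _).trans ?_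
    have := totalDegree_X (R := Zx n) j
    omega
  have h3 : ((1 + ∑ j, X j ^ 2 : Zxy n) ^ (3 * 5 ^ n)).totalDegree ≤ (3 * 5 ^ n) * 2 :=
    (totalDegree_pow _ _).trans (Nat.mul_le_mul_left _ h2)
  omega

/-- `∂_j f'` has degree `< mI n` in `y` -/
theorem innerG_totalDegree_lt {A : Type*} [CommRing A] (φ : Zx n →+* A) (Γ Z : A) {f : Zxy n}
    (hf : f.totalDegree ≤ 4) : ∀ j, (innerG φ Γ Z f j).totalDegree < mI n := by
  intro j
  unfold innerG
  refine lt_of_le_of_lt (totalDegree_sub _ _) ?_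
  rw [totalDegree_neg, totalDegree_one, max_eq_left (Nat.zero_le _)]
  have h1 := (totalDegree_mul (C (Z * Γ)) (pderiv j (map φ (fp f))))
  rw [totalDegree_C, zero_add] at h1
  have h2 := totalDegree_pderiv_le' j (map φ (fp f))
  have h3 := map_fp_totalDegree_le φ hf
  unfold mI dI
  omega

theorem ev2_fp (x y : Fin n → ℝ) (f : Zxy n) :
    ev2 x y (fp f) = ev2 x y f * (1 + ∑ j, y j ^ 2) ^ (3 * 5 ^ n) := by
  simp [ev2, fp]

theorem eval_HI (p : Fin 5 → ℝ) (x y : Fin n → ℝ) (f : Zxy n) :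
    eval y (HI p x f) = 2 * (dI n : ℝ) * p 2 * (p 1 * ev2 x y (fp f) - 1) +
      ∑ j, (y j ^ (2 * dI n) + 2 * (dI n : ℝ) * y j + 2 * (dI n : ℝ)) := by
  simp [HI, innerH, pen, ev2]

theorem pen_ge (t : ℝ) : (dI n : ℝ) * (t + 1) ^ 2 + 1 ≤
    t ^ (2 * dI n) + 2 * (dI n : ℝ) * t + 2 * (dI n : ℝ) := by
  have h : 1 + (dI n : ℝ) * (t ^ 2 - 1) ≤ (1 + (t ^ 2 - 1)) ^ dI n :=
    one_add_mul_le_pow (by nlinarith [sq_nonneg t]) _
  rw [pow_mul]
  have h2 : (1 + (t ^ 2 - 1)) = t ^ 2 := by ring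
  rw [h2] at h
  nlinarith

theorem pen_nonneg (t : ℝ) : 0 ≤ t ^ (2 * dI n) + 2 * (dI n : ℝ) * t + 2 * (dI n : ℝ) := by
  refine le_trans ?_ (pen_ge t)
  positivity

theorem continuous_xhom (a : Zx n) : Continuous fun x : Fin n → ℝ => xhom x a := by
  induction a using MvPolynomial.induction_on with
  | C a => simp only [xhom, coe_eval₂Hom, eval₂_C]; exact continuous_const
  | add p q hp hq => simp only [map_add]; exact hp.add hq
  | mul_X p i hp =>
    simp only [map_mul]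
    refine hp.mul ?_
    simp only [xhom, coe_eval₂Hom, eval₂_X]
    exact continuous_apply i

theorem continuous_ev2 (f : Zxy n) :
    Continuous fun q : (Fin n → ℝ) × (Fin n → ℝ) => ev2 q.1 q.2 f := by
  induction f using MvPolynomial.induction_on with
  | C a =>
    simp only [ev2, map_C, eval_C]
    exact (continuous_xhom a).comp continuous_fst
  | add p q hp hq => simp only [ev2, map_add] at *; exact hp.add hq
  | mul_X p i hp =>
    simp only [ev2, map_mul, map_X, eval_X] at *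
    refine hp.mul ?_
    exact (continuous_apply i).comp continuous_snd

/-- joint continuity of `(p,x,y) ↦ H_{p,x}(y)` -/
theorem continuous_HI (f : Zxy n) :
    Continuous fun q : (Fin 5 → ℝ) × (Fin n → ℝ) × (Fin n → ℝ) =>
      eval q.2.2 (HI q.1 q.2.1 f) := by
  simp only [eval_HI]
  have h1 : Continuous fun q : (Fin 5 → ℝ) × (Fin n → ℝ) × (Fin n → ℝ) =>
      ev2 q.2.1 q.2.2 (fp f) := (continuous_ev2 (fp f)).comp continuous_snd
  fun_prop

theorem HI_ge {f : Zxy n} (hf0 : ∀ x y : Fin n → ℝ, 0 ≤ ev2 x y f) {p : Fin 5 → ℝ}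
    (h1 : 0 ≤ p 1) (h2 : 0 ≤ p 2) (x y : Fin n → ℝ) (j : Fin n) :
    (dI n : ℝ) * (y j + 1) ^ 2 + 1 - 2 * (dI n : ℝ) * p 2 ≤ eval y (HI p x f) := by
  rw [eval_HI, ev2_fp]
  have h3 : 0 ≤ ev2 x y f * (1 + ∑ j, y j ^ 2) ^ (3 * 5 ^ n) := by
    refine mul_nonneg (hf0 x y) ?_
    positivity
  have h4 : (y j ^ (2 * dI n) + 2 * (dI n : ℝ) * y j + 2 * (dI n : ℝ)) ≤
      ∑ j, (y j ^ (2 * dI n) + 2 * (dI n : ℝ) * y j + 2 * (dI n : ℝ)) :=
    Finset.single_le_sum (f := fun j => (y j ^ (2 * dI n) + 2 * (dI n : ℝ) * y j + 2 * (dI n : ℝ)))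
      (fun j _ => pen_nonneg (y j)) (Finset.mem_univ j)
  have h5 := pen_ge (n := n) (y j)
  have h6 : 0 ≤ 2 * (dI n : ℝ) * p 2 * (p 1 * (ev2 x y f * (1 + ∑ j, y j ^ 2) ^ (3 * 5 ^ n))) := by
    positivity
  nlinarith

/-- outside a bounded set `H` is large -/
theorem exists_lt_HI {f : Zxy n} (hf0 : ∀ x y : Fin n → ℝ, 0 ≤ ev2 x y f) {p : Fin 5 → ℝ}
    (h1 : 0 ≤ p 1) (h2 : 0 ≤ p 2) {c B : ℝ} (hB : p 2 ≤ B) (hc : 0 ≤ c) (x y : Fin n → ℝ)
    (hy : y ∉ Metric.closedBall (0 : Fin n → ℝ) (c + 2 * B + 2)) : c < eval y (HI p x f) := by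
  have hB0 : 0 ≤ B := h2.trans hB
  have hr : 0 ≤ c + 2 * B + 2 := by positivity
  rw [mem_closedBall_zero_iff, pi_norm_le_iff_of_nonneg hr] at hy
  push Not at hy
  obtain ⟨j, hj⟩ := hy
  rw [Real.norm_eq_abs] at hj
  have h3 := HI_ge hf0 h1 h2 x y j
  have h4 : c + 2 * B + 1 ≤ |y j + 1| := by
    have := abs_sub_abs_le_abs_sub (y j) (-1)
    rw [abs_neg, abs_one, sub_neg_eq_add] at this
    linarith
  have h5 : (1 : ℝ) ≤ dI n := by
    have := one_le_dI n
    exact_mod_cast (by omega : 1 ≤ dI n)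
  have h6 : (c + 2 * B + 1) ^ 2 ≤ (y j + 1) ^ 2 := by
    rw [← sq_abs (y j + 1)]
    exact pow_le_pow_left₀ (by positivity) h4 2
  have h7 : c ≤ (y j + 1) ^ 2 - 2 * B := by nlinarith
  have h8 : c ≤ (dI n : ℝ) * ((y j + 1) ^ 2 - 2 * B) := by nlinarith
  have h9 : (dI n : ℝ) * p 2 ≤ (dI n : ℝ) * B := by nlinarith
  nlinarith

/-- the minimum is attained -/
theorem exists_min_HI {f : Zxy n} (hf0 : ∀ x y : Fin n → ℝ, 0 ≤ ev2 x y f) {p : Fin 5 → ℝ}
    (h1 : 0 ≤ p 1) (h2 : 0 ≤ p 2) (x : Fin n → ℝ) :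
    ∃ y₀ : Fin n → ℝ, ∀ y, eval y₀ (HI p x f) ≤ eval y (HI p x f) := by
  have hcont : Continuous fun y : Fin n → ℝ => eval y (HI p x f) :=
    MvPolynomial.continuous_eval _
  refine hcont.exists_forall_le' 0 ?_
  have hK : IsCompact (Metric.closedBall (0 : Fin n → ℝ)
      (|eval 0 (HI p x f)| + 2 * p 2 + 2)) := isCompact_closedBall _ _
  filter_upwards [hK.compl_mem_cocompact] with y hy
  exact (le_abs_self _).trans (exists_lt_HI hf0 h1 h2 le_rfl (abs_nonneg _) x y hy).le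

theorem hasDerivAt_eval_update (P : MvPolynomial (Fin n) ℝ) (y : Fin n → ℝ) (j : Fin n) (t : ℝ) :
    HasDerivAt (fun t => eval (Function.update y j t) P)
      (eval (Function.update y j t) (pderiv j P)) t := by
  induction P using MvPolynomial.induction_on with
  | C a => simpa using hasDerivAt_const t a
  | add p q hp hq =>
    simp only [map_add]
    exact hp.add hq
  | mul_X p i hp =>
    have hX : HasDerivAt (fun t => eval (Function.update y j t) (X i))
        (eval (Function.update y j t) (pderiv j (X i))) t := by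
      by_cases hij : i = j
      · subst hij
        simpa using hasDerivAt_id' t
      · rw [pderiv_X_of_ne hij]
        simp only [eval_X, Function.update_of_ne hij, map_zero]
        exact hasDerivAt_const t _
    rw [pderiv_mul]
    simp only [map_mul, map_add]
    exact hp.mul hX

theorem pderiv_HI (p : Fin 5 → ℝ) (x : Fin n → ℝ) (f : Zxy n) (j : Fin n) :
    pderiv j (HI p x f) = C (2 * (dI n : ℝ)) * (X j ^ mI n - gI p x f j) := by
  have h6 := one_le_dI n
  have h1 : pderiv j (pen ℝ n) = C (2 * (dI n : ℝ)) * X j ^ (2 * dI n - 1) +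
      C (2 * (dI n : ℝ)) := by
    unfold pen
    rw [map_sum, Finset.sum_eq_single j]
    · have hC : (2 : MvPolynomial (Fin n) ℝ) = C 2 := (map_ofNat C 2).symm
      simp only [map_add, pderiv_pow, pderiv_C_mul, pderiv_X_self, map_mul, map_natCast,
        Nat.cast_mul, Nat.cast_ofNat, hC]
      simp
    · intro i _ hij
      simp only [map_add, pderiv_pow, pderiv_C_mul, pderiv_X_of_ne hij, pderiv_C]
      simp
    · simp
  unfold HI innerH gI innerG mI
  rw [map_add, h1, pderiv_C_mul, map_sub, pderiv_C_mul]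
  simp only [map_mul, pderiv_one]
  ring

/-- minimum points (even all critical points) solve the inner system -/
theorem msol_of_min {f : Zxy n} {p : Fin 5 → ℝ} {x y₀ : Fin n → ℝ}
    (h : ∀ y, eval y₀ (HI p x f) ≤ eval y (HI p x f)) : msol (mI n) (gI p x f) y₀ := by
  intro j
  have h1 := hasDerivAt_eval_update (HI p x f) y₀ j (y₀ j)
  rw [Function.update_eq_self] at h1
  have h2 : IsLocalMin (fun t => eval (Function.update y₀ j t) (HI p x f)) (y₀ j) := by
    refine Filter.Eventually.of_forall fun t => ?_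
    show eval (Function.update y₀ j (y₀ j)) (HI p x f) ≤ _
    rw [Function.update_eq_self]
    exact h _
  have h3 := h2.hasDerivAt_eq_zero h1
  rw [pderiv_HI] at h3
  simp only [map_mul, eval_C, map_sub, map_pow, eval_X] at h3
  have h6 := one_le_dI n
  have h4 : (2 * (dI n : ℝ)) ≠ 0 := by
    have : (0 : ℝ) < dI n := by exact_mod_cast (by omega : 0 < dI n)
    positivity
  exact sub_eq_zero.mp ((mul_eq_zero.mp h3).resolve_left h4)

theorem continuous_HI' (f : Zxy n) :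
    Continuous fun z : ((Fin 5 → ℝ) × (Fin n → ℝ)) × (Fin n → ℝ) =>
      eval z.2 (HI z.1.1 z.1.2 f) := by
  simp only [eval_HI]
  have h0 : Continuous fun z : ((Fin 5 → ℝ) × (Fin n → ℝ)) × (Fin n → ℝ) => (z.1.2, z.2) := by
    fun_prop
  have h1 := (continuous_ev2 (fp f)).comp h0
  simp only [Function.comp_def] at h1
  fun_prop

/-- positivity of `H` is an open condition in `(p,x)` -/
theorem isOpen_HI_pos {f : Zxy n} (hf0 : ∀ x y : Fin n → ℝ, 0 ≤ ev2 x y f)
    {p : Fin 5 → ℝ} {x : Fin n → ℝ} (h1 : 0 < p 1) (h2 : 0 < p 2)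
    (h : ∀ y, 0 < eval y (HI p x f)) :
    ∀ᶠ q : (Fin 5 → ℝ) × (Fin n → ℝ) in nhds (p, x), ∀ y, 0 < eval y (HI q.1 q.2 f) := by
  let K : Set (Fin n → ℝ) := Metric.closedBall (0 : Fin n → ℝ) (0 + 2 * (p 2 + 1) + 2)
  have hK : IsCompact K := isCompact_closedBall _ _
  let F : ((Fin 5 → ℝ) × (Fin n → ℝ)) × (Fin n → ℝ) → ℝ := fun z => eval z.2 (HI z.1.1 z.1.2 f)
  have hF : Continuous F := continuous_HI' f
  have hA : ∀ᶠ q : (Fin 5 → ℝ) × (Fin n → ℝ) in nhds (p, x), ∀ y ∈ K, 0 < F (q, y) := by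
    refine hK.eventually_forall_of_forall_eventually fun y _ => ?_
    have h3 : ∀ᶠ z in nhds ((p, x), y), 0 < F z :=
      continuousAt_const.eventually_lt hF.continuousAt (h y)
    exact h3
  have hc1 : Continuous fun q : (Fin 5 → ℝ) × (Fin n → ℝ) => q.1 1 := by fun_prop
  have hc2 : Continuous fun q : (Fin 5 → ℝ) × (Fin n → ℝ) => q.1 2 := by fun_prop
  have hB : ∀ᶠ q : (Fin 5 → ℝ) × (Fin n → ℝ) in nhds (p, x), 0 < q.1 1 :=
    continuousAt_const.eventually_lt hc1.continuousAt h1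
  have hC : ∀ᶠ q : (Fin 5 → ℝ) × (Fin n → ℝ) in nhds (p, x), 0 < q.1 2 :=
    continuousAt_const.eventually_lt hc2.continuousAt h2
  have hD : ∀ᶠ q : (Fin 5 → ℝ) × (Fin n → ℝ) in nhds (p, x), q.1 2 < p 2 + 1 :=
    hc2.continuousAt.eventually_lt continuousAt_const (lt_add_one (p 2))
  filter_upwards [hA, hB, hC, hD] with q qA qB qC qD y
  by_cases hy : y ∈ K
  · exact qA y hy
  · exact exists_lt_HI hf0 qB.le qC.le qD.le le_rfl q.2 y hy

/-- if `H ≥ 0` everywhere but not `> 0` everywhere then `V` vanishes -/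
theorem innerV_eq_zero {f : Zxy n} (hf4 : f.totalDegree ≤ 4) {p : Fin 5 → ℝ} {x : Fin n → ℝ}
    (h : ∀ y, 0 ≤ eval y (HI p x f)) (h' : ¬ ∀ y, 0 < eval y (HI p x f)) :
    innerV (xhom x) (p 1) (p 2) f = 0 := by
  push Not at h'
  obtain ⟨y, hy⟩ := h'
  have h0 : eval y (HI p x f) = 0 := le_antisymm hy (h y)
  exact mnorm_eq_zero_of_msol (innerG_totalDegree_lt _ _ _ hf4)
    (msol_of_min (y₀ := y) fun z => by rw [h0]; exact h z) h0

/-- if `V ≠ 0` and `H` is not everywhere positive, there is a solution of the inner system with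
`H < 0`; and conversely -/
theorem exists_msol_neg_iff {f : Zxy n} (hf4 : f.totalDegree ≤ 4)
    (hf0 : ∀ x y : Fin n → ℝ, 0 ≤ ev2 x y f) {p : Fin 5 → ℝ}
    (h1 : 0 ≤ p 1) (h2 : 0 ≤ p 2) {x : Fin n → ℝ}
    (hV : innerV (xhom x) (p 1) (p 2) f ≠ 0) :
    (∃ y, msol (mI n) (gI p x f) y ∧ eval y (HI p x f) < 0) ↔
      ¬ ∀ y, 0 < eval y (HI p x f) := by
  constructor
  · rintro ⟨y, -, hy⟩ h
    exact lt_asymm hy (h y)
  · intro h
    obtain ⟨y₀, hy₀⟩ := exists_min_HI hf0 h1 h2 x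
    refine ⟨y₀, msol_of_min hy₀, ?_⟩
    by_contra hcon
    push Not at hcon
    exact hV (innerV_eq_zero hf4 (fun y => hcon.trans (hy₀ y)) h)

end Crest.Agent.R316
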