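import Crest.Agent.R316.Alg.Fam
import Crest.Agent.R316.Ana.Deriv

/-!
# R316 / Ana / L1  (task B1)
If `f(x,·) ≥ 0` (degree `≤ 4` in `y`) has no real zero then `f' = f (1+|y|²)^(3·5^n)` is bounded
below by a positive constant.

Proof: `μ(λ) = min_y (λ f + ∑ y_j^6)` (attained, nondecreasing, tends to `∞` as `λ → ∞` because
otherwise minimizers stay bounded and accumulate at a zero of `f`). Critical points solve the
monic system `y_j^5 = -(λ/6) ∂_j f` (degree `≤ 3`), hence `C(λ, μ(λ)) = 0` with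
`C(λ,T) = Norm(T - (λ f + ∑ y_j^6)) ∈ ℝ[λ][T]` monic in `T` of degree `N = 5^n`, `C(0,T) = T^N`.
Comparing growth: `μ^N ≥ c λ` for large `λ`. Then optimise over `λ`:
with `τ = ∑ y_j^6`, `f ≥ (μ(λ) - τ)/λ` for `(c λ)^(1/N) = 2 τ`. Note `τ ≤ (∑ y_j²)^3`.
-/

set_option autoImplicit false

namespace Crest.Agent.R316

open MvPolynomial

variable {n : ℕ}

/-! ### growth of algebraic functions -/

private theorem abs_eval_le_pow (W : Polynomial ℝ) {N : ℕ} (hN : W.natDegree ≤ N) {T : ℝ}
    (hT : 1 ≤ T) : |W.eval T| ≤ (∑ i ∈ Finset.range (N + 1), |W.coeff i|) * T ^ N := by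
  rw [Polynomial.eval_eq_sum_range' (Nat.lt_succ_of_le hN), Finset.sum_mul]
  refine (Finset.abs_sum_le_sum_abs _ _).trans (Finset.sum_le_sum fun i hi => ?_)
  rw [abs_mul, abs_of_nonneg (pow_nonneg (by linarith : (0:ℝ) ≤ T) i)]
  refine mul_le_mul_of_nonneg_left ?_ (abs_nonneg _)
  exact pow_le_pow_right₀ hT (by have := Finset.mem_range.mp hi; omega)

private theorem exists_abs_eval_ge {W : Polynomial ℝ} (hW : W ≠ 0) :
    ∃ c > 0, ∀ᶠ T : ℝ in Filter.atTop, c ≤ |W.eval T| := by
  by_cases hdeg : 0 < W.degree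
  · exact ⟨1, one_pos, (Polynomial.abs_tendsto_atTop W hdeg).eventually_ge_atTop 1⟩
  · have h : W = Polynomial.C (W.coeff 0) :=
      Polynomial.eq_C_of_degree_le_zero (not_lt.mp hdeg)
    refine ⟨|W.coeff 0|, ?_, Filter.Eventually.of_forall fun T => ?_⟩
    · refine abs_pos.mpr fun h0 => ?_
      rw [h0, Polynomial.C_0] at h
      exact hW h
    · conv_rhs => rw [h, Polynomial.eval_C]

/-- the coefficient of `λ^k` as a polynomial in `T` -/
private noncomputable def lamCoeff (P : Polynomial (Polynomial ℝ)) (k : ℕ) : Polynomial ℝ :=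
  ∑ i ∈ Finset.range (P.natDegree + 1), Polynomial.monomial i ((P.coeff i).coeff k)

private theorem lamCoeff_coeff (P : Polynomial (Polynomial ℝ)) (k i : ℕ) :
    (lamCoeff P k).coeff i = (P.coeff i).coeff k := by
  unfold lamCoeff
  rw [Polynomial.finsetSum_coeff]
  simp only [Polynomial.coeff_monomial]
  by_cases hi : i < P.natDegree + 1
  · rw [Finset.sum_eq_single i]
    · simp
    · intro j _ hj; simp [hj]
    · intro h; exact absurd (Finset.mem_range.mpr hi) h
  · rw [Finset.sum_eq_zero, Polynomial.coeff_eq_zero_of_natDegree_lt (p := P) (by omega),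
      Polynomial.coeff_zero]
    intro j hj
    have := Finset.mem_range.mp hj
    rw [if_neg (by omega)]

private theorem lamCoeff_natDegree (P : Polynomial (Polynomial ℝ)) (k : ℕ) :
    (lamCoeff P k).natDegree ≤ P.natDegree := by
  rw [Polynomial.natDegree_le_iff_coeff_eq_zero]
  intro i hi
  rw [lamCoeff_coeff, Polynomial.coeff_eq_zero_of_natDegree_lt (p := P) (by omega),
    Polynomial.coeff_zero]

private theorem eval_eq_sum_lamCoeff (P : Polynomial (Polynomial ℝ)) {D : ℕ}
    (hD : ∀ i, (P.coeff i).natDegree ≤ D) (l T : ℝ) :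
    (P.map (Polynomial.evalRingHom l)).eval T =
      ∑ k ∈ Finset.range (D + 1), l ^ k * (lamCoeff P k).eval T := by
  have h1 : (P.map (Polynomial.evalRingHom l)).eval T =
      ∑ i ∈ Finset.range (P.natDegree + 1),
        (∑ k ∈ Finset.range (D + 1), (P.coeff i).coeff k * l ^ k) * T ^ i := by
    rw [Polynomial.eval_eq_sum_range' (n := P.natDegree + 1)
      (Nat.lt_succ_of_le (Polynomial.natDegree_map_le))]
    refine Finset.sum_congr rfl fun i _ => ?_
    rw [Polynomial.coeff_map, Polynomial.coe_evalRingHom,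
      Polynomial.eval_eq_sum_range' (Nat.lt_succ_of_le (hD i))]
  have h2 : ∀ k, (lamCoeff P k).eval T =
      ∑ i ∈ Finset.range (P.natDegree + 1), (P.coeff i).coeff k * T ^ i := by
    intro k
    rw [Polynomial.eval_eq_sum_range' (n := P.natDegree + 1)
      (Nat.lt_succ_of_le (lamCoeff_natDegree P k))]
    simp only [lamCoeff_coeff]
  rw [h1]
  simp only [h2, Finset.sum_mul, Finset.mul_sum]
  rw [Finset.sum_comm]
  refine Finset.sum_congr rfl fun k _ => Finset.sum_congr rfl fun i _ => by ring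

/-- growth of a root branch: `P(λ,T)` monic in `T` of degree `N` with `P(0,T) = T^N`; a real root
branch tending to infinity satisfies `μ^N ≥ c λ`. -/
theorem growth_of_root {P : Polynomial (Polynomial ℝ)} {N : ℕ} (hN : P.natDegree = N)
    (h0 : P.map (Polynomial.evalRingHom 0) = Polynomial.X ^ N) {μ : ℝ → ℝ}
    (hroot : ∀ l, 0 ≤ l → (P.map (Polynomial.evalRingHom l)).eval (μ l) = 0)
    (htop : Filter.Tendsto μ Filter.atTop Filter.atTop) :
    ∃ c > 0, ∀ᶠ l in Filter.atTop, c * l ≤ μ l ^ N := by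
  classical
  obtain ⟨D, hD⟩ : ∃ D, ∀ i, (P.coeff i).natDegree ≤ D := by
    refine ⟨(Finset.range (P.natDegree + 1)).sup fun i => (P.coeff i).natDegree, fun i => ?_⟩
    by_cases hi : i < P.natDegree + 1
    · exact Finset.le_sup (f := fun i => (P.coeff i).natDegree) (Finset.mem_range.mpr hi)
    · rw [Polynomial.coeff_eq_zero_of_natDegree_lt (by omega)]
      simp
  have hW0 : lamCoeff P 0 = Polynomial.X ^ N := by
    rw [← h0]
    ext i
    rw [lamCoeff_coeff, Polynomial.coeff_map, Polynomial.coe_evalRingHom,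
      Polynomial.coeff_zero_eq_eval_zero]
  -- the top index
  set S := (Finset.range (D + 1)).filter fun k => lamCoeff P k ≠ 0 with hS
  have hS0 : 0 ∈ S := by
    rw [hS, Finset.mem_filter]
    refine ⟨Finset.mem_range.mpr (Nat.succ_pos _), ?_⟩
    rw [hW0]
    exact pow_ne_zero _ Polynomial.X_ne_zero
  set K := S.max' ⟨0, hS0⟩ with hK
  have hKS : K ∈ S := Finset.max'_mem _ _
  have hKD : K ≤ D := by
    have := (Finset.mem_filter.mp hKS).1
    have := Finset.mem_range.mp this
    omega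
  have hKne : lamCoeff P K ≠ 0 := (Finset.mem_filter.mp hKS).2
  have hgt : ∀ k, K < k → k ≤ D → lamCoeff P k = 0 := by
    intro k hk hkD
    by_contra hne
    have : k ∈ S := Finset.mem_filter.mpr ⟨Finset.mem_range.mpr (by omega), hne⟩
    have := Finset.le_max' S k this
    omega
  have hsum : ∀ l T : ℝ, (P.map (Polynomial.evalRingHom l)).eval T =
      ∑ k ∈ Finset.range (K + 1), l ^ k * (lamCoeff P k).eval T := by
    intro l T
    rw [eval_eq_sum_lamCoeff P hD]
    symm
    refine Finset.sum_subset (Finset.range_subset_range.mpr (by omega)) fun k hk hk' => ?_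
    rw [hgt k]
    · simp
    · by_contra hc
      exact hk' (Finset.mem_range.mpr (by omega))
    · have := Finset.mem_range.mp hk
      omega
  -- `K ≥ 1`
  have hK1 : 1 ≤ K := by
    by_contra hc
    have hK0 : K = 0 := by omega
    obtain ⟨l, hl0, hl1⟩ := ((Filter.eventually_ge_atTop (0:ℝ)).and
      (htop.eventually_ge_atTop 1)).exists
    have h1 := hroot l hl0
    rw [hsum, hK0] at h1
    simp only [zero_add, Finset.range_one, Finset.sum_singleton, pow_zero, one_mul, hW0,
      Polynomial.eval_pow, Polynomial.eval_X] at h1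
    have : 0 < μ l ^ N := pow_pos (by linarith) _
    linarith
  obtain ⟨c, hc, hcT⟩ := exists_abs_eval_ge hKne
  set B : ℝ := ∑ k ∈ Finset.range K, ∑ i ∈ Finset.range (N + 1), |(lamCoeff P k).coeff i|
    with hB
  have hB0 : 0 ≤ B := Finset.sum_nonneg fun k _ => Finset.sum_nonneg fun i _ => abs_nonneg _
  refine ⟨c / (B + 1), by positivity, ?_⟩
  filter_upwards [Filter.eventually_ge_atTop (1:ℝ), htop.eventually_ge_atTop 1,
    htop.eventually hcT] with l hl hμ1 hcl
  have h1 := hroot l (by linarith)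
  rw [hsum, Finset.sum_range_succ] at h1
  have hμN : (0:ℝ) ≤ μ l ^ N := pow_nonneg (by linarith) _
  have h2 : l ^ K * |(lamCoeff P K).eval (μ l)| ≤ l ^ (K - 1) * (B * μ l ^ N) := by
    have h3 : l ^ K * (lamCoeff P K).eval (μ l) =
        -∑ k ∈ Finset.range K, l ^ k * (lamCoeff P k).eval (μ l) := by linarith
    have h4 : |l ^ K * (lamCoeff P K).eval (μ l)| ≤
        ∑ k ∈ Finset.range K, |l ^ k * (lamCoeff P k).eval (μ l)| := by
      rw [h3, abs_neg]
      exact Finset.abs_sum_le_sum_abs _ _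
    rw [abs_mul, abs_of_nonneg (by positivity : (0:ℝ) ≤ l ^ K)] at h4
    refine h4.trans ?_
    rw [hB, Finset.sum_mul, Finset.mul_sum]
    refine Finset.sum_le_sum fun k hk => ?_
    rw [abs_mul, abs_of_nonneg (by positivity : (0:ℝ) ≤ l ^ k)]
    refine mul_le_mul ?_ ?_ (abs_nonneg _) (by positivity)
    · exact pow_le_pow_right₀ hl (by have := Finset.mem_range.mp hk; omega)
    · exact abs_eval_le_pow _ (by rw [← hN]; exact lamCoeff_natDegree P k) hμ1
  have h5 : l ^ K = l ^ (K - 1) * l := by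
    rw [← pow_succ]; congr 1; omega
  rw [h5, mul_assoc] at h2
  have hlpos : (0:ℝ) < l ^ (K - 1) := by positivity
  have h6 : l * |(lamCoeff P K).eval (μ l)| ≤ B * μ l ^ N := le_of_mul_le_mul_left h2 hlpos
  have h7 : l * c ≤ B * μ l ^ N :=
    (mul_le_mul_of_nonneg_left hcl (by linarith)).trans h6
  rw [div_mul_eq_mul_div, div_le_iff₀ (by positivity)]
  nlinarith

/-! ### the generic monic system -/

/-- `-(λ/6) ∂_j F` over `ℝ[λ]` -/
private noncomputable def gL (F : MvPolynomial (Fin n) ℝ) :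
    Fin n → MvPolynomial (Fin n) (Polynomial ℝ) :=
  fun j => C (Polynomial.C (-(1/6 : ℝ)) * Polynomial.X) * map Polynomial.C (pderiv j F)

private noncomputable def HL (F : MvPolynomial (Fin n) ℝ) :
    MvPolynomial (Fin n) (Polynomial ℝ) :=
  C Polynomial.X * map Polynomial.C F + ∑ j, X j ^ 6

private theorem gL_lt (F : MvPolynomial (Fin n) ℝ) (hdeg : F.totalDegree ≤ 4) :
    ∀ j, (gL F j).totalDegree < 5 := by
  intro j
  unfold gL
  refine lt_of_le_of_lt (totalDegree_mul _ _) ?_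
  rw [totalDegree_C, zero_add]
  refine lt_of_le_of_lt (Finset.sup_mono (support_map_subset _ _)) ?_
  exact lt_of_le_of_lt (totalDegree_pderiv_le_D F j) (by omega)

private theorem map_gL (F : MvPolynomial (Fin n) ℝ) (l : ℝ) (j : Fin n) :
    map (Polynomial.evalRingHom l) (gL F j) = C (-(1/6) * l) * pderiv j F := by
  unfold gL
  have hc : (Polynomial.evalRingHom l).comp Polynomial.C = RingHom.id ℝ := by
    ext a; simp
  rw [map_mul, map_map, hc, map_id, map_C]
  simp

private theorem map_HL (F : MvPolynomial (Fin n) ℝ) (l : ℝ) :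
    map (Polynomial.evalRingHom l) (HL F) = C l * F + ∑ j, X j ^ 6 := by
  unfold HL
  have hc : (Polynomial.evalRingHom l).comp Polynomial.C = RingHom.id ℝ := by
    ext a; simp
  simp [map_map, hc, map_id]

private theorem mcp_zero (F : MvPolynomial (Fin n) ℝ) (hdeg : F.totalDegree ≤ 4) :
    (mcp 5 (gL F) (HL F)).map (Polynomial.evalRingHom 0) = Polynomial.X ^ (5 ^ n) := by
  rw [← mcp_map (Polynomial.evalRingHom 0) (gL_lt F hdeg)]
  have hg := totalDegree_map_lt (Polynomial.evalRingHom (0:ℝ)) (gL_lt F hdeg)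
  rw [mcp_eq_charpoly hg]
  have h0 : mmat hg (map (Polynomial.evalRingHom 0) (HL F)) = 0 := by
    unfold mmat
    have : (Ideal.Quotient.mk (mideal 5 fun i => map (Polynomial.evalRingHom (0:ℝ)) (gL F i)))
        (map (Polynomial.evalRingHom 0) (HL F)) = 0 := by
      rw [map_HL, map_add, map_sum, map_zero, zero_mul, map_zero, zero_add]
      refine Finset.sum_eq_zero fun j _ => ?_
      rw [pow_succ, map_mul, mk_rel, map_gL]
      simp
    rw [this, map_zero]
  rw [h0, Matrix.charpoly_zero]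
  simp

/-! ### the objective `λ F + ∑ y_j^6` -/

private theorem abs_le_of_pow_six_le {t B : ℝ} (h : t ^ 6 ≤ B) : |t| ≤ 1 + B := by
  have hB : 0 ≤ B := le_trans (by positivity) h
  by_contra hc
  push Not at hc
  have h1 : 1 ≤ |t| := by linarith
  have h2 : |t| ≤ |t| ^ 6 := le_self_pow₀ h1 (by norm_num)
  have h3 : |t| ^ 6 = t ^ 6 := by
    rw [show (6:ℕ) = 2 * 3 by norm_num, pow_mul, sq_abs, ← pow_mul]
  linarith

private theorem isBounded_tau (B : ℝ) :
    Bornology.IsBounded {y : Fin n → ℝ | ∑ j, y j ^ 6 ≤ B} := by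
  refine (Metric.isBounded_closedBall (x := (0 : Fin n → ℝ)) (r := 1 + |B|)).subset fun y hy => ?_
  rw [mem_closedBall_zero_iff, pi_norm_le_iff_of_nonneg (by positivity)]
  intro j
  rw [Real.norm_eq_abs]
  have h1 : y j ^ 6 ≤ ∑ j, y j ^ 6 :=
    Finset.single_le_sum (f := fun j => y j ^ 6) (fun i _ => by positivity) (Finset.mem_univ j)
  have h2 : y j ^ 6 ≤ |B| := h1.trans (le_trans hy (le_abs_self B))
  exact abs_le_of_pow_six_le h2

private theorem exists_minimizer (F : MvPolynomial (Fin n) ℝ) (h0 : ∀ y, 0 ≤ eval y F) {l : ℝ}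
    (hl : 0 ≤ l) : ∃ y₀ : Fin n → ℝ, ∀ y,
      eval y₀ (C l * F + ∑ j, X j ^ 6) ≤ eval y (C l * F + ∑ j, X j ^ 6) := by
  refine Continuous.exists_forall_le_of_isBounded (MvPolynomial.continuous_eval _) 0 ?_
  refine (isBounded_tau (eval (0 : Fin n → ℝ) (C l * F + ∑ j, X j ^ 6))).subset fun y hy => ?_
  rw [Set.mem_ofPred_eq] at hy ⊢
  refine le_trans ?_ hy
  have := mul_nonneg hl (h0 y)
  simp only [map_add, map_mul, eval_C, map_sum, map_pow, eval_X]
  linarith

private theorem msol_minimizer (F : MvPolynomial (Fin n) ℝ) {l : ℝ} {y₀ : Fin n → ℝ}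
    (h : ∀ y, eval y₀ (C l * F + ∑ j, X j ^ 6) ≤ eval y (C l * F + ∑ j, X j ^ 6)) :
    msol 5 (fun j => map (Polynomial.evalRingHom l) (gL F j)) y₀ := by
  intro j
  have hloc : IsLocalMin (fun y => eval y (C l * F + ∑ j, X j ^ 6)) y₀ :=
    Filter.Eventually.of_forall h
  have h1 := eval_pderiv_eq_zero_of_isLocalMin hloc j
  beta_reduce
  rw [map_gL]
  have h2 : pderiv j (∑ i : Fin n, (X i : MvPolynomial (Fin n) ℝ) ^ 6) = 6 * X j ^ 5 := by
    rw [map_sum, Finset.sum_eq_single j]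
    · rw [Derivation.leibniz_pow, pderiv_X_self]
      simp
    · intro i _ hi
      rw [Derivation.leibniz_pow, pderiv_X_of_ne hi]
      simp
    · simp
  rw [map_add, h2, Derivation.leibniz, pderiv_C] at h1
  simp only [smul_eq_mul, map_add, map_mul, eval_C, map_pow, eval_X, map_ofNat,
    mul_zero, add_zero] at h1
  simp only [map_mul, eval_C]
  linarith

private theorem tau_le (y : Fin n → ℝ) : 1 + ∑ j, y j ^ 6 ≤ (1 + ∑ j, y j ^ 2) ^ 3 := by
  set s := ∑ j, y j ^ 2 with hs
  have hs0 : 0 ≤ s := Finset.sum_nonneg fun j _ => sq_nonneg _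
  have h1 : ∑ j, y j ^ 6 ≤ s ^ 3 := by
    have : ∀ j ∈ Finset.univ, y j ^ 6 ≤ y j ^ 2 * s ^ 2 := by
      intro j _
      have hj : y j ^ 2 ≤ s :=
        Finset.single_le_sum (f := fun j => y j ^ 2) (fun i _ => sq_nonneg _) (Finset.mem_univ j)
      calc y j ^ 6 = y j ^ 2 * (y j ^ 2) ^ 2 := by ring
        _ ≤ y j ^ 2 * s ^ 2 := by
          refine mul_le_mul_of_nonneg_left ?_ (sq_nonneg _)
          exact pow_le_pow_left₀ (sq_nonneg _) hj 2
    refine (Finset.sum_le_sum this).trans ?_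
    rw [← Finset.sum_mul, ← hs]
    exact le_of_eq (by ring)
  nlinarith [mul_nonneg hs0 hs0]

theorem exists_pos_lower_bound (F : MvPolynomial (Fin n) ℝ) (hdeg : F.totalDegree ≤ 4)
    (h0 : ∀ y, 0 ≤ eval y F) (hne : ∀ y, eval y F ≠ 0) :
    ∃ δ > 0, ∀ y : Fin n → ℝ, δ ≤ eval y F * (1 + ∑ j, y j ^ 2) ^ (3 * 5 ^ n) := by
  have hmin : ∀ l : ℝ, ∃ y₀ : Fin n → ℝ, 0 ≤ l → ∀ y,
      eval y₀ (C l * F + ∑ j, X j ^ 6) ≤ eval y (C l * F + ∑ j, X j ^ 6) := by
    intro l
    by_cases hl : 0 ≤ l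
    · obtain ⟨y₀, hy⟩ := exists_minimizer F h0 hl
      exact ⟨y₀, fun _ => hy⟩
    · exact ⟨0, fun h => absurd h hl⟩
  choose Y hY using hmin
  set μ : ℝ → ℝ := fun l => eval (Y l) (C l * F + ∑ j, X j ^ 6) with hμ
  have hval : ∀ (l : ℝ) (y : Fin n → ℝ), eval y (C l * F + ∑ j, X j ^ 6) =
      l * eval y F + ∑ j, y j ^ 6 := by
    intro l y
    simp
  have hle : ∀ l, 0 ≤ l → ∀ y : Fin n → ℝ, μ l ≤ l * eval y F + ∑ j, y j ^ 6 := by
    intro l hl y
    rw [← hval]
    exact hY l hl y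
  have hμ0 : ∀ l, 0 ≤ l → 0 ≤ μ l := by
    intro l hl
    rw [hμ]
    simp only [hval]
    have := mul_nonneg hl (h0 (Y l))
    have : 0 ≤ ∑ j, Y l j ^ 6 := Finset.sum_nonneg fun j _ => by positivity
    linarith
  have htop : Filter.Tendsto μ Filter.atTop Filter.atTop := by
    rw [Filter.tendsto_atTop_atTop]
    intro b
    -- compact sublevel set
    have hcomp : IsCompact {y : Fin n → ℝ | ∑ j, y j ^ 6 ≤ |b|} := by
      refine Metric.isCompact_of_isClosed_isBounded ?_ (isBounded_tau _)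
      exact isClosed_le (continuous_finsetSum _ fun j _ => (continuous_apply j).pow 6)
        continuous_const
    obtain ⟨y₁, hy₁, hmin₁⟩ := hcomp.exists_isMinOn (f := fun y => eval y F)
      ⟨0, by simp⟩ (MvPolynomial.continuous_eval F).continuousOn
    have hpos : 0 < eval y₁ F := lt_of_le_of_ne (h0 y₁) (Ne.symm (hne y₁))
    refine ⟨max 0 (|b| / eval y₁ F), fun l hl => ?_⟩
    have hl0 : 0 ≤ l := le_trans (le_max_left _ _) hl
    have hl1 : |b| / eval y₁ F ≤ l := le_trans (le_max_right _ _) hl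
    rw [hμ]
    simp only [hval]
    by_cases hc : ∑ j, Y l j ^ 6 ≤ |b|
    · have h1 : eval y₁ F ≤ eval (Y l) F := hmin₁ hc
      have h2 : |b| ≤ l * eval y₁ F := by
        rwa [div_le_iff₀ hpos] at hl1
      have h3 : l * eval y₁ F ≤ l * eval (Y l) F := mul_le_mul_of_nonneg_left h1 hl0
      have h4 : 0 ≤ ∑ j, Y l j ^ 6 := Finset.sum_nonneg fun j _ => by positivity
      linarith [le_abs_self b]
    · have := mul_nonneg hl0 (h0 (Y l))
      push Not at hc
      linarith [le_abs_self b]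
  have hroot : ∀ l, 0 ≤ l →
      ((mcp 5 (gL F) (HL F)).map (Polynomial.evalRingHom l)).eval (μ l) = 0 := by
    intro l hl
    rw [← mcp_map (Polynomial.evalRingHom l) (gL_lt F hdeg)]
    have hg := totalDegree_map_lt (Polynomial.evalRingHom l) (gL_lt F hdeg)
    have h1 := mcp_eval_of_msol hg (msol_minimizer F (hY l hl))
      (map (Polynomial.evalRingHom l) (HL F))
    rw [map_HL] at h1 ⊢
    exact h1
  obtain ⟨c, hc, hev⟩ := growth_of_root (mcp_natDegree (gL_lt F hdeg) (HL F)) (mcp_zero F hdeg)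
    hroot htop
  obtain ⟨l₀, hl₀⟩ := Filter.eventually_atTop.mp hev
  set N := 5 ^ n with hN
  have hN1 : N ≠ 0 := by positivity
  set A : ℝ := max (max l₀ 1) (1 / c) with hA
  have hA0 : l₀ ≤ A := (le_max_left _ _).trans (le_max_left _ _)
  have hA1 : 1 ≤ A := (le_max_right _ _).trans (le_max_left _ _)
  have hAc : 1 ≤ A * c := by
    have : 1 / c ≤ A := le_max_right _ _
    rwa [div_le_iff₀ hc] at this
  refine ⟨1 / (A * 2 ^ N), by positivity, fun y => ?_⟩
  set τ := ∑ j, y j ^ 6 with hτ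
  have hτ0 : 0 ≤ τ := Finset.sum_nonneg fun j _ => by positivity
  set l := A * (2 * (τ + 1)) ^ N with hl
  have hpow1 : 1 ≤ (2 * (τ + 1)) ^ N := one_le_pow₀ (by linarith)
  have hlA : A ≤ l := by
    rw [hl]; exact le_mul_of_one_le_right (by linarith) hpow1
  have h1 : c * l ≤ μ l ^ N := hl₀ l (hA0.trans hlA)
  have hl0 : 0 ≤ l := by linarith
  have h2 : 2 * (τ + 1) ≤ μ l := by
    have h3 : (2 * (τ + 1)) ^ N ≤ μ l ^ N := by
      refine le_trans ?_ h1
      rw [hl]
      have : (2 * (τ + 1)) ^ N ≤ (A * c) * (2 * (τ + 1)) ^ N :=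
        le_mul_of_one_le_left (by linarith) hAc
      linarith
    exact le_of_pow_le_pow_left₀ hN1 (hμ0 l hl0) h3
  have h4 := hle l hl0 y
  have h5 : 1 ≤ l * eval y F := by linarith
  have h6 : (1 + τ) ^ N ≤ (1 + ∑ j, y j ^ 2) ^ (3 * N) := by
    rw [pow_mul]
    exact pow_le_pow_left₀ (by linarith) (tau_le y) N
  have h7 : eval y F * (1 + τ) ^ N ≤ eval y F * (1 + ∑ j, y j ^ 2) ^ (3 * N) :=
    mul_le_mul_of_nonneg_left h6 (h0 y)
  refine le_trans ?_ h7
  rw [div_le_iff₀ (by positivity)]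
  have h8 : l * eval y F = eval y F * (1 + τ) ^ N * (A * 2 ^ N) := by
    rw [hl, mul_pow]; ring
  linarith

end Crest.Agent.R316
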