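import Crest.Agent.R316.Ana.InnerMin

/-!
# R316 / Ana / Limit  (task B8)
If for fixed `R₀, Γ` the predicate `EE` holds for arbitrarily large `Z`, the sentence is true.
-/

set_option autoImplicit false

namespace Crest.Agent.R316

open MvPolynomial Filter Topology

variable {n : ℕ}

/-- `x ↦ g(x,y)` is continuous -/
theorem continuous_ev2_left (y : Fin n → ℝ) (g : Zxy n) :
    Continuous fun x : Fin n → ℝ => ev2 x y g := by
  induction g using MvPolynomial.induction_on with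
  | C a =>
    have h : ∀ x : Fin n → ℝ, ev2 x y (C a) = eval x (map (Int.castRingHom ℝ) a) := by
      intro x
      rw [ev2, map_C, eval_C, xhom, coe_eval₂Hom, eval_map]
    simp only [h]
    exact MvPolynomial.continuous_eval _
  | add p q hp hq =>
    have h : ∀ x : Fin n → ℝ, ev2 x y (p + q) = ev2 x y p + ev2 x y q := by
      intro x; simp [ev2]
    simp only [h]
    exact hp.add hq
  | mul_X p i hp =>
    have h : ∀ x : Fin n → ℝ, ev2 x y (p * X i) = ev2 x y p * y i := by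
      intro x; simp [ev2]
    simp only [h]
    exact hp.mul continuous_const

theorem truth_of_EE {f : Zxy n} (hf0 : ∀ x y : Fin n → ℝ, 0 ≤ ev2 x y f) {M : ℕ} {a b : ℝ}
    (ha : 0 < a) (hb : 0 < b)
    (h : ∀ c₀ : ℝ, ∃ p : Fin 5 → ℝ, p 0 = a ∧ p 1 = b ∧ c₀ ≤ p 2 ∧ EE M f p) : Truth f := by
  have hd : (0 : ℝ) < 2 * (dI n : ℝ) := by
    have : 0 < dI n := by unfold dI; positivity
    positivity
  -- choose a sequence of points
  have h1 : ∀ k : ℕ, ∃ (Z : ℝ) (x : Fin n → ℝ), (k : ℝ) + 1 ≤ Z ∧ ∑ i, x i ^ 2 < a ^ 2 ∧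
      ∀ y : Fin n → ℝ, 0 < 2 * (dI n : ℝ) * Z * (b * ev2 x y (fp f) - 1) +
        ∑ j, (y j ^ (2 * dI n) + 2 * (dI n : ℝ) * y j + 2 * (dI n : ℝ)) := by
    intro k
    obtain ⟨p, hp0, hp1, hp2, x, -, hx, hy⟩ := h ((k : ℝ) + 1)
    refine ⟨p 2, x, hp2, by rw [← hp0]; exact hx, fun y => ?_⟩
    have := hy y
    rw [eval_HI, hp1] at this
    exact this
  choose Z x hZ hx hH using h1
  -- compactness
  have hmem : ∀ k, x k ∈ Set.Icc (fun _ : Fin n => -a) (fun _ => a) := by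
    intro k
    have hi : ∀ i, |x k i| ≤ a := by
      intro i
      have h2 : x k i ^ 2 ≤ ∑ i, x k i ^ 2 :=
        Finset.single_le_sum (f := fun i => x k i ^ 2) (fun i _ => sq_nonneg _) (Finset.mem_univ i)
      have h3 : x k i ^ 2 ≤ a ^ 2 := h2.trans (hx k).le
      exact abs_le_of_sq_le_sq h3 ha.le
    exact ⟨fun i => (abs_le.mp (hi i)).1, fun i => (abs_le.mp (hi i)).2⟩
  obtain ⟨x₀, -, φ, hφ, hlim⟩ := isCompact_Icc.tendsto_subseq hmem
  refine ⟨x₀, fun y hy0 => ?_⟩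
  set c : ℝ := ∑ j, (y j ^ (2 * dI n) + 2 * (dI n : ℝ) * y j + 2 * (dI n : ℝ)) with hc
  have hev : Tendsto (fun k => b * ev2 (x (φ k)) y (fp f)) atTop (𝓝 (b * ev2 x₀ y (fp f))) :=
    ((((continuous_ev2_left y (fp f)).tendsto x₀).comp hlim).const_mul b)
  have hZlim : Tendsto (fun k => Z (φ k)) atTop atTop := by
    refine tendsto_atTop_mono (f := fun k : ℕ => (k : ℝ)) (fun k => ?_) tendsto_natCast_atTop_atTop
    have h2 := hZ (φ k)
    have h3 : (k : ℝ) ≤ φ k := by exact_mod_cast hφ.id_le k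
    linarith
  have hlow : Tendsto (fun k => 1 - c / (2 * (dI n : ℝ)) * (Z (φ k))⁻¹) atTop (𝓝 (1 - 0)) := by
    refine tendsto_const_nhds.sub ?_
    have := (hZlim.inv_tendsto_atTop).const_mul (c / (2 * (dI n : ℝ)))
    simpa using this
  have hle : 1 - 0 ≤ b * ev2 x₀ y (fp f) := by
    refine le_of_tendsto_of_tendsto' hlow hev fun k => ?_
    have h2 := hH (φ k) y
    have hZ0 : 0 < Z (φ k) := by
      have h3 := hZ (φ k)
      have h4 : (0 : ℝ) ≤ (φ k : ℝ) := Nat.cast_nonneg _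
      linarith
    rw [← hc] at h2
    have h5 : 0 < 2 * (dI n : ℝ) * Z (φ k) := by positivity
    have h6 : c / (2 * (dI n : ℝ)) * (Z (φ k))⁻¹ = c / (2 * (dI n : ℝ) * Z (φ k)) := by
      field_simp
    rw [h6]
    have h7 : -(c / (2 * (dI n : ℝ) * Z (φ k))) < b * ev2 (x (φ k)) y (fp f) - 1 := by
      rw [← neg_div, div_lt_iff₀ h5]
      linarith
    linarith
  rw [ev2_fp, hy0] at hle
  norm_num at hle

end Crest.Agent.R316
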