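import Crest.Agent.R316.Ana.Disc
import Crest.Agent.R316.Ana.L1

/-!
# R316 / Ana / Sample  (task B7)
Truth implies `EE` at nested-large parameters: a maximum of
`Q² - (1/A) ∑ x_i - (1/((2M) z A)) ∑ x_i^(2M)` on the component of `{Q ≠ 0} ∩ ball` containing a
witness.  (The gradient of this function times `zA` is `zA ∂_i(Q²) - z - x_i^(2M-1)`.)
-/

set_option autoImplicit false

namespace Crest.Agent.R316

open MvPolynomial

variable {n : ℕ}

/-- partial derivatives of evaluations along coordinate lines -/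
theorem hasDerivAt_eval_update_S (P : MvPolynomial (Fin n) ℝ) (u : Fin n → ℝ) (i : Fin n) (t : ℝ) :
    HasDerivAt (fun s => eval (Function.update u i s) P)
      (eval (Function.update u i t) (pderiv i P)) t := by
  induction P using MvPolynomial.induction_on with
  | C a => simp only [eval_C, pderiv_C, map_zero]; exact hasDerivAt_const t a
  | add P Q hP hQ =>
    simp only [map_add]
    exact hP.add hQ
  | mul_X P j hP =>
    have hX : HasDerivAt (fun s => Function.update u i s j)
        (eval (Function.update u i t) (pderiv i (X j))) t := by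
      by_cases h : j = i
      · subst h
        simp only [Function.update_self, pderiv_X_self, map_one]
        exact hasDerivAt_id t
      · simp only [Function.update_of_ne h, pderiv_X_of_ne h, map_zero]
        exact hasDerivAt_const t _
    have h := hP.mul hX
    simp only [map_mul, eval_X, Derivation.leibniz, smul_eq_mul, map_add]
    rw [add_comm, mul_comm (Function.update u i t j)]
    exact h

theorem continuous_eval_fixed (P : MvPolynomial (Fin n) ℝ) :
    Continuous fun u : Fin n → ℝ => eval u P := by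
  induction P using MvPolynomial.induction_on with
  | C a => simpa using continuous_const
  | add P Q hP hQ => simp only [map_add]; exact hP.add hQ
  | mul_X P j hP => simp only [map_mul, eval_X]; exact hP.mul (continuous_apply j)

theorem continuous_HI_x (f : Zxy n) (p : Fin 5 → ℝ) (y : Fin n → ℝ) :
    Continuous fun x : Fin n → ℝ => eval y (HI p x f) := by
  have hc : Continuous fun x : Fin n → ℝ =>
      ((p, x, y) : (Fin 5 → ℝ) × (Fin n → ℝ) × (Fin n → ℝ)) :=
    Continuous.prodMk continuous_const (Continuous.prodMk continuous_id continuous_const)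
  have h := (continuous_HI f).comp hc
  simp only [Function.comp_def] at h
  exact h

/-- `Q` does not depend on the last two parameters -/
theorem eval_QO_congr {f : Zxy n} (hf4 : f.totalDegree ≤ 4) {a b c : ℝ} (d e d' e' : ℝ)
    (u : Fin n → ℝ) :
    eval u (QO ![a, b, c, d, e] f) = eval u (QO ![a, b, c, d', e'] f) := by
  rw [eval_QO _ _ hf4, eval_QO _ _ hf4]
  rfl

section
variable [NeZero n]

/-- the property `∀ y, H > 0` is constant on connected components of `{Q_p ≠ 0}` (used on the
open set where `|x| < R₀`) -/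
theorem HI_pos_const_on_preconnected {f : Zxy n} (hf4 : f.totalDegree ≤ 4)
    (hf0 : ∀ x y : Fin n → ℝ, 0 ≤ ev2 x y f) {p : Fin 5 → ℝ} (h1 : 0 < p 1) (h2 : 0 < p 2)
    {U : Set (Fin n → ℝ)} (hU : IsPreconnected U) (hQ : ∀ x ∈ U, eval x (QO p f) ≠ 0)
    {x x' : Fin n → ℝ} (hx : x ∈ U) (hx' : x' ∈ U) (h : ∀ y, 0 < eval y (HI p x f)) :
    ∀ y, 0 < eval y (HI p x' f) := by
  let u : Set (Fin n → ℝ) := {x | ∀ y, 0 < eval y (HI p x f)}
  let v : Set (Fin n → ℝ) := {x | ∃ y, eval y (HI p x f) < 0}
  have hu : IsOpen u := by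
    rw [isOpen_iff_mem_nhds]
    intro x hx
    have h3 := isOpen_HI_pos hf0 h1 h2 hx
    rw [nhds_prod_eq] at h3
    have h4 : Filter.Tendsto (fun x' : Fin n → ℝ => (p, x')) (nhds x) (nhds p ×ˢ nhds x) :=
      Filter.Tendsto.prodMk tendsto_const_nhds Filter.tendsto_id
    exact h4.eventually h3
  have hv : IsOpen v := by
    rw [isOpen_iff_mem_nhds]
    rintro x ⟨y, hy⟩
    have h4 : ∀ᶠ x' in nhds x, eval y (HI p x' f) < 0 :=
      (continuous_HI_x f p y).continuousAt.eventually_lt continuousAt_const hy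
    exact h4.mono fun x' hx' => ⟨y, hx'⟩
  have huv : U ⊆ u ∪ v := by
    intro z hz
    by_cases hzu : z ∈ u
    · exact Or.inl hzu
    · right
      by_contra hcon
      have h0 : ∀ y, 0 ≤ eval y (HI p z f) := by
        intro y
        by_contra hy
        exact hcon ⟨y, not_le.1 hy⟩
      have hV := innerV_eq_zero hf4 h0 hzu
      exact hQ z hz (by rw [eval_QO p z hf4, hV]; ring)
  have hdisj : U ∩ (u ∩ v) = ∅ := by
    ext z
    simp only [Set.mem_inter_iff, Set.mem_empty_iff_false, iff_false, not_and]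
    intro _ hzu hzv
    obtain ⟨y, hy⟩ := hzv
    exact lt_asymm hy (hzu y)
  rcases isPreconnected_iff_subset_of_disjoint.1 hU u v hu hv huv hdisj with h3 | h3
  · exact h3 hx'
  · obtain ⟨y, hy⟩ := h3 hx
    exact absurd hy (not_lt.2 (h y).le)

/-- critical point of the perturbed `Q²` in the component of `x₀`, for `A` and then `z` large -/
theorem exists_msol_in_component {f : Zxy n} {M : ℕ} (hM : 1 ≤ M) {a b c : ℝ} (ha : 0 < a)
    {x₀ : Fin n → ℝ} (hx₀ : ∑ i, x₀ i ^ 2 < a ^ 2)
    (hQ : ∀ d e : ℝ, eval x₀ (QO ![a, b, c, d, e] f) ≠ 0) (hf4 : f.totalDegree ≤ 4) :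
    ∀ᶠ d : ℝ in Filter.atTop, ∀ᶠ e : ℝ in Filter.atTop,
      ∃ x : Fin n → ℝ, msol (2 * M - 1) (gO ![a, b, c, d, e] f) x ∧ ∑ i, x i ^ 2 < a ^ 2 ∧
        ∃ U : Set (Fin n → ℝ), IsPreconnected U ∧ x₀ ∈ U ∧ x ∈ U ∧
          ∀ u ∈ U, eval u (QO ![a, b, c, d, e] f) ≠ 0 := by
  set P : MvPolynomial (Fin n) ℝ := QO ![a, b, c, 0, 0] f with hP
  have hPe : ∀ (d e : ℝ) (u : Fin n → ℝ), eval u (QO ![a, b, c, d, e] f) = eval u P :=
    fun d e u => eval_QO_congr hf4 d e 0 0 u
  have hPeq : ∀ d e : ℝ, QO ![a, b, c, d, e] f = P := fun d e => MvPolynomial.funext (hPe d e)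
  have hcont := continuous_eval_fixed P
  have hsq : Continuous fun u : Fin n → ℝ => ∑ i, u i ^ 2 := by fun_prop
  -- the open set and the component
  let W : Set (Fin n → ℝ) := {u | ∑ i, u i ^ 2 < a ^ 2 ∧ eval u P ≠ 0}
  have hWo : IsOpen W := (isOpen_lt hsq continuous_const).inter
    (isOpen_ne_fun hcont continuous_const)
  have hx₀W : x₀ ∈ W := ⟨hx₀, by rw [← hPe 0 0]; exact hQ 0 0⟩
  let U : Set (Fin n → ℝ) := connectedComponentIn W x₀
  have hUo : IsOpen U := hWo.connectedComponentIn
  have hUp : IsPreconnected U := isPreconnected_connectedComponentIn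
  have hx₀U : x₀ ∈ U := mem_connectedComponentIn hx₀W
  have hUW : U ⊆ W := connectedComponentIn_subset W x₀
  have hball : closure U ⊆ {u | ∑ i, u i ^ 2 ≤ a ^ 2} :=
    closure_minimal (fun u hu => (hUW hu).1.le) (isClosed_le hsq continuous_const)
  have hbdd : ∀ u ∈ closure U, ∀ i, |u i| ≤ a := by
    intro u hu i
    have h1 : u i ^ 2 ≤ a ^ 2 :=
      (Finset.single_le_sum (f := fun i => u i ^ 2) (fun i _ => sq_nonneg (u i))
        (Finset.mem_univ i)).trans (hball hu)
    exact abs_le_of_sq_le_sq h1 ha.le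
  have hcomp : IsCompact (closure U) := by
    refine Metric.isCompact_of_isClosed_isBounded isClosed_closure ?_
    refine (Metric.isBounded_closedBall (x := (0 : Fin n → ℝ)) (r := a)).subset ?_
    intro u hu
    rw [mem_closedBall_zero_iff, pi_norm_le_iff_of_nonneg ha.le]
    intro i
    rw [Real.norm_eq_abs]
    exact hbdd u hu i
  -- points of the frontier
  have hfr : ∀ u ∈ closure U, eval u P ≠ 0 → u ∈ U := by
    intro u hu hne
    have hlt : ∑ i, u i ^ 2 < a ^ 2 := by
      refine lt_of_le_of_ne (hball hu) fun heq => hne ?_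
      rw [hP, eval_QO _ _ hf4]
      have : (![a, b, c, 0, 0] : Fin 5 → ℝ) 0 = a := rfl
      rw [this, heq]
      ring
    have huW : u ∈ W := ⟨hlt, hne⟩
    have hins : IsPreconnected (insert u U) := by
      refine hUp.subset_closure (Set.subset_insert _ _) ?_
      intro z hz
      rcases hz with rfl | hz
      · exact hu
      · exact subset_closure hz
    have hsub : insert u U ⊆ W := by
      intro z hz
      rcases hz with rfl | hz
      · exact huW
      · exact hUW hz
    exact hins.subset_connectedComponentIn (Set.mem_insert_of_mem _ hx₀U) hsub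
      (Set.mem_insert _ _)
  -- the objective
  set κ : ℝ := eval x₀ P ^ 2 with hκ
  have hκpos : 0 < κ := by
    have := hx₀W.2
    positivity
  have hd : ∀ᶠ d : ℝ in Filter.atTop, 0 < d ∧ (2 * n * a + n * a ^ (2 * M)) < d * κ := by
    refine (Filter.eventually_gt_atTop 0).and ?_
    filter_upwards [Filter.eventually_gt_atTop ((2 * n * a + n * a ^ (2 * M)) / κ)] with d hd
    rwa [div_lt_iff₀ hκpos] at hd
  filter_upwards [hd] with d hd
  filter_upwards [Filter.eventually_ge_atTop (1 : ℝ)] with e he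
  have he0 : 0 < e := by linarith
  obtain ⟨hd0, hd1⟩ := hd
  -- multiply the objective by `d * e`
  let F : (Fin n → ℝ) → ℝ := fun u =>
    e * d * eval u P ^ 2 - e * ∑ i, u i - (1 / (2 * M : ℝ)) * ∑ i, u i ^ (2 * M)
  have hFc : Continuous F := by
    have h1 : Continuous fun u : Fin n → ℝ => ∑ i, u i := by fun_prop
    have h2 : Continuous fun u : Fin n → ℝ => ∑ i, u i ^ (2 * M) := by fun_prop
    exact ((continuous_const.mul (hcont.pow 2)).sub (continuous_const.mul h1)).sub
      (continuous_const.mul h2)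
  obtain ⟨x, hxc, hxmax⟩ := hcomp.exists_isMaxOn ⟨x₀, subset_closure hx₀U⟩ hFc.continuousOn
  have hsum_abs : ∀ u ∈ closure U, |∑ i, u i| ≤ n * a := by
    intro u hu
    refine (Finset.abs_sum_le_sum_abs _ _).trans ?_
    refine (Finset.sum_le_sum fun i _ => hbdd u hu i).trans ?_
    simp
  have hpow_nonneg : ∀ u : Fin n → ℝ, 0 ≤ ∑ i, u i ^ (2 * M) := by
    intro u
    refine Finset.sum_nonneg fun i _ => ?_
    rw [pow_mul]; positivity
  have hM1 : (1 : ℝ) ≤ M := by exact_mod_cast hM
  have hpow_le : ∑ i, x₀ i ^ (2 * M) ≤ n * a ^ (2 * M) := by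
    refine (Finset.sum_le_sum (g := fun _ => a ^ (2 * M)) fun i _ => ?_).trans ?_
    · have h1 := hbdd x₀ (subset_closure hx₀U) i
      have h2 : x₀ i ^ (2 * M) = |x₀ i| ^ (2 * M) := by
        rw [pow_mul, pow_mul, sq_abs]
      rw [h2]
      exact pow_le_pow_left₀ (abs_nonneg _) h1 _
    · simp
  have hinv : 1 / (2 * M : ℝ) ≤ 1 := by
    rw [div_le_one (by positivity)]
    linarith
  have hinv0 : 0 ≤ 1 / (2 * M : ℝ) := by positivity
  have hFx₀ : e * d * κ - e * (n * a) - n * a ^ (2 * M) ≤ F x₀ := by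
    have h1 : e * ∑ i, x₀ i ≤ e * (n * a) :=
      mul_le_mul_of_nonneg_left ((le_abs_self _).trans (hsum_abs x₀ (subset_closure hx₀U))) he0.le
    have h2 : (1 / (2 * M : ℝ)) * ∑ i, x₀ i ^ (2 * M) ≤ n * a ^ (2 * M) := by
      calc (1 / (2 * M : ℝ)) * ∑ i, x₀ i ^ (2 * M) ≤ 1 * ∑ i, x₀ i ^ (2 * M) :=
            mul_le_mul_of_nonneg_right hinv (hpow_nonneg x₀)
        _ ≤ _ := by rw [one_mul]; exact hpow_le
    simp only [F]
    linarith
  have hxne : eval x P ≠ 0 := by
    intro h0
    have h1 : F x ≤ e * (n * a) := by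
      simp only [F, h0]
      have h2 : -(e * ∑ i, x i) ≤ e * (n * a) := by
        rw [← mul_neg]
        exact mul_le_mul_of_nonneg_left ((neg_le_abs _).trans (hsum_abs x hxc)) he0.le
      have h3 : 0 ≤ (1 / (2 * M : ℝ)) * ∑ i, x i ^ (2 * M) :=
        mul_nonneg hinv0 (hpow_nonneg x)
      have h4 : e * d * (0 : ℝ) ^ 2 = 0 := by ring
      linarith
    have h2 : F x₀ ≤ F x := hxmax (subset_closure hx₀U)
    have h3 : e * (2 * n * a + n * a ^ (2 * M)) < e * (d * κ) := mul_lt_mul_of_pos_left hd1 he0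
    have h4 : (n : ℝ) * a ^ (2 * M) ≤ e * (n * a ^ (2 * M)) := by
      have : (0 : ℝ) ≤ n * a ^ (2 * M) := by positivity
      nlinarith
    nlinarith
  have hxU : x ∈ U := hfr x hxc hxne
  refine ⟨x, ?_, (hUW hxU).1, U, hUp, hx₀U, hxU, fun u hu => ?_⟩
  · intro i
    rw [gO_eq, hPeq]
    have e4 : (![a, b, c, d, e] : Fin 5 → ℝ) 4 = e := rfl
    have e3 : (![a, b, c, d, e] : Fin 5 → ℝ) 3 = d := rfl
    rw [e4, e3]
    -- first-order condition along the `i`-th coordinate
    have hloc : IsLocalMax (fun t => F (Function.update x i t)) (x i) := by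
      have hup : Function.update x i (x i) = x := Function.update_eq_self i x
      have hcu : Continuous fun t : ℝ => Function.update x i t :=
        continuous_const.update i continuous_id
      have hnh : ∀ᶠ t in nhds (x i), Function.update x i t ∈ U := by
        apply hcu.continuousAt.eventually
        show ∀ᶠ y in nhds (Function.update x i (x i)), y ∈ U
        rw [hup]
        exact hUo.mem_nhds hxU
      filter_upwards [hnh] with t ht
      rw [hup]
      exact hxmax (subset_closure ht)
    have hder : HasDerivAt (fun t => F (Function.update x i t))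
        (eval x (C (e * d) * pderiv i (P ^ 2)) - e - x i ^ (2 * M - 1)) (x i) := by
      have h1 := hasDerivAt_eval_update_S (P ^ 2) x i (x i)
      rw [Function.update_eq_self] at h1
      have h2 := hasDerivAt_eval_update_S (∑ j, X j) x i (x i)
      have h3 := hasDerivAt_eval_update_S (∑ j, X j ^ (2 * M)) x i (x i)
      rw [Function.update_eq_self] at h2 h3
      have h5 := ((h1.const_mul (e * d)).sub (h2.const_mul e)).sub
        (h3.const_mul (1 / (2 * M : ℝ)))
      have h6 : (fun t => F (Function.update x i t)) =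
          ((fun t => e * d * eval (Function.update x i t) (P ^ 2)) -
            fun t => e * eval (Function.update x i t) (∑ j, X j)) -
            fun t => (1 / (2 * M : ℝ)) * eval (Function.update x i t) (∑ j, X j ^ (2 * M)) := by
        funext t
        simp only [F, map_pow, map_sum, eval_X, Pi.sub_apply]
      rw [h6]
      refine h5.congr_deriv ?_
      · have e1 : pderiv i (∑ j, X j : MvPolynomial (Fin n) ℝ) = 1 := by
          rw [map_sum, Finset.sum_eq_single i]
          · simp
          · intro j _ hj; exact pderiv_X_of_ne hj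
          · simp
        have e2 : pderiv i (∑ j, X j ^ (2 * M) : MvPolynomial (Fin n) ℝ)
            = C (2 * M : ℝ) * X i ^ (2 * M - 1) := by
          rw [map_sum, Finset.sum_eq_single i]
          · rw [Derivation.leibniz_pow, pderiv_X_self]
            rw [map_mul, map_ofNat, map_natCast]
            simp [nsmul_eq_mul]
          · intro j _ hj
            rw [Derivation.leibniz_pow, pderiv_X_of_ne hj]
            simp
          · simp
        rw [e1, e2]
        simp only [map_mul, eval_C, map_one, map_pow, eval_X, mul_one]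
        have : (M : ℝ) ≠ 0 := by positivity
        field_simp
    have h0 := hloc.hasDerivAt_eq_zero hder
    simp only [map_sub, eval_C]
    linarith
  · rw [hPe]
    exact (hUW hu).2

/-- truth implies `EE` at nested-large parameters -/
theorem eventually_EE_of_truth {f : Zxy n} (hf4 : f.totalDegree ≤ 4)
    (hf0 : ∀ x y : Fin n → ℝ, 0 ≤ ev2 x y f) {M : ℕ} (hM : 1 ≤ M) (h : Truth f) :
    ∀ᶠ a in Filter.atTop, ∀ᶠ b in Filter.atTop, ∀ᶠ c in Filter.atTop,
      ∀ᶠ d in Filter.atTop, ∀ᶠ e in Filter.atTop, EE M f ![a, b, c, d, e] := by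
  obtain ⟨x₀, hx₀⟩ := h
  obtain ⟨δ, hδ, hlow⟩ := exists_pos_lower_bound (map (xhom x₀) f)
    ((Finset.sup_mono (support_map_subset _ f)).trans hf4) (fun y => hf0 x₀ y) hx₀
  have hlow' : ∀ y, δ ≤ ev2 x₀ y (fp f) := fun y => by rw [ev2_fp]; exact hlow y
  have hpen : ∀ y : Fin n → ℝ,
      0 ≤ ∑ j, (y j ^ (2 * dI n) + 2 * (dI n : ℝ) * y j + 2 * (dI n : ℝ)) :=
    fun y => Finset.sum_nonneg fun j _ => pen_nonneg (y j)
  have ha : ∀ᶠ a : ℝ in Filter.atTop, ∑ i, x₀ i ^ 2 < a ^ 2 :=
    (Filter.tendsto_pow_atTop (two_ne_zero)).eventually_gt_atTop _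
  filter_upwards [ha, Filter.eventually_gt_atTop 0, eventually_QO_ne_zero hf4 x₀] with a ha ha0 hQa
  filter_upwards [hQa, Filter.eventually_gt_atTop 0, Filter.eventually_gt_atTop (1 / δ)]
    with b hQb hb0 hb
  filter_upwards [hQb, Filter.eventually_gt_atTop 0] with c hQc hc0
  filter_upwards [exists_msol_in_component hM ha0 ha hQc hf4] with d hd
  filter_upwards [hd] with e he
  obtain ⟨x, hx, hxa, U, hU, hx₀U, hxU, hne⟩ := he
  refine ⟨x, hx, hxa, ?_⟩
  refine HI_pos_const_on_preconnected hf4 hf0 (p := ![a, b, c, d, e]) hb0 hc0 hU hne hx₀U hxU ?_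
  intro y
  rw [eval_HI]
  have h1 : (![a, b, c, d, e] : Fin 5 → ℝ) 1 = b := rfl
  have h2 : (![a, b, c, d, e] : Fin 5 → ℝ) 2 = c := rfl
  rw [h1, h2]
  have h3 : 1 < b * δ := by rwa [div_lt_iff₀ hδ] at hb
  have h4 : b * δ ≤ b * ev2 x₀ y (fp f) := mul_le_mul_of_nonneg_left (hlow' y) hb0.le
  have h5 : 0 < b * ev2 x₀ y (fp f) - 1 := by linarith
  have h6 : (0 : ℝ) < dI n := by
    have := one_le_dI n
    exact_mod_cast (by omega : 0 < dI n)
  have h7 : 0 < 2 * (dI n : ℝ) * c * (b * ev2 x₀ y (fp f) - 1) := by positivity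
  have := hpen y
  linarith

end

end Crest.Agent.R316
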