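import Crest.Agent.R316.Ana.OpenClosed
import Crest.Agent.R316.Ana.Sample
import Crest.Agent.R316.Ana.Limit

/-!
# R316 / Ana / Main  (task B9): truth is equivalent to `EE` at any point of the region.
-/

set_option autoImplicit false

namespace Crest.Agent.R316

open MvPolynomial

variable {n : ℕ} [NeZero n]

theorem truth_iff_EE {f : Zxy n} (hf4 : f.totalDegree ≤ 4)
    (hf0 : ∀ x y : Fin n → ℝ, 0 ≤ ev2 x y f) {M : ℕ} (hM : (outQ f).totalDegree < M)
    {C : ℝ} {E : ℕ} (hC : 2 ≤ C) (hE : 2 * M ≤ E) (hB : Bd (outDisc M f) (C - 1) (E - 1))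
    {p : Fin 5 → ℝ} (hp : p ∈ Reg C E) : Truth f ↔ EE M f p := by
  have hdisc : ∀ p ∈ Reg C E, xhom p (outDisc M f) ≠ 0 := by
    intro p hp
    refine ne_zero_of_mem_Reg (outDisc_ne_zero hM) hB ?_
    have : E - 1 + 1 = E := by omega
    rw [this]
    simpa using hp
  constructor
  · intro h
    obtain ⟨q, hq, hE'⟩ := exists_mem_Reg (C := C) (E := E)
      (eventually_EE_of_truth hf4 hf0 (by omega : 1 ≤ M) h)
    exact EE_const hf4 hf0 hM hC hE hdisc hq hp hE'
  · intro h
    refine truth_of_EE (M := M) hf0 (a := p 0) (b := p 1) ?_ ?_ ?_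
    · have := hp.1; linarith
    · exact lt_of_lt_of_le (by linarith) (Reg_le (by linarith) (by omega) hp 1)
    · intro c₀
      obtain ⟨q, hq, h0, h1, h2⟩ := exists_mem_Reg_third (C := C) (E := E) hp.1 hp.2.1 c₀
      exact ⟨q, h0, h1, h2, EE_const hf4 hf0 hM hC hE hdisc hp hq h⟩

end Crest.Agent.R316
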