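import Crest.Agent.R316.Alg.Fam

/-!
# R316 / Ana / Region  (task B4)
The parameter region `Reg C E`: connectedness, non-vanishing of integer polynomials, membership.
-/

set_option autoImplicit false

namespace Crest.Agent.R316

open MvPolynomial

/-- generic step for the comparison of monomials -/
private theorem reg_step {K u v w : ℝ} {E k l : ℕ} (hK : K ≤ u) (hu : 1 ≤ u)
    (hv : u ^ (E + 1) ≤ v) (hw0 : 0 ≤ w) (hw : w ≤ u ^ E) (hkl : k < l) :
    K * (w * v ^ k) ≤ v ^ l := by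
  have hv1 : 1 ≤ v := (one_le_pow₀ hu).trans hv
  have h1 : K * w ≤ v := by
    calc K * w ≤ u * w := mul_le_mul_of_nonneg_right hK hw0
      _ ≤ u * u ^ E := mul_le_mul_of_nonneg_left hw (by linarith)
      _ = u ^ (E + 1) := by ring
      _ ≤ v := hv
  calc K * (w * v ^ k) = (K * w) * v ^ k := by ring
    _ ≤ v * v ^ k := mul_le_mul_of_nonneg_right h1 (by positivity)
    _ = v ^ (k + 1) := by ring
    _ ≤ v ^ l := pow_le_pow_right₀ hv1 hkl

/-- two different monomials of degree at most `E` differ at least by the factor `K` -/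
private theorem reg_mono_aux {K : ℝ} {E : ℕ} (hK : 1 ≤ K) {p : Fin 5 → ℝ}
    (hp : p ∈ Reg K (E + 1)) {s t : Fin 5 → ℕ} (hs : ∀ i, s i ≤ E) (ht : ∀ i, t i ≤ E)
    (hst : s ≠ t) :
    K * ∏ i, p i ^ s i ≤ ∏ i, p i ^ t i ∨ K * ∏ i, p i ^ t i ≤ ∏ i, p i ^ s i := by
  obtain ⟨h0, h1, h2, h3, h4⟩ := hp
  set a := p 0
  set b := p 1
  set c := p 2
  set d := p 3
  set e := p 4
  have ha : 1 ≤ a := hK.trans h0
  have hb : 1 ≤ b := (one_le_pow₀ ha).trans h1
  have hab : 1 ≤ a * b := one_le_mul_of_one_le_of_one_le ha hb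
  have hc : 1 ≤ c := (one_le_pow₀ hab).trans h2
  have habc : 1 ≤ a * b * c := one_le_mul_of_one_le_of_one_le hab hc
  have hd : 1 ≤ d := (one_le_pow₀ habc).trans h3
  have habcd : 1 ≤ a * b * c * d := one_le_mul_of_one_le_of_one_le habc hd
  have he : 1 ≤ e := (one_le_pow₀ habcd).trans h4
  have hKab : K ≤ a * b := h0.trans (le_mul_of_one_le_right (by linarith) hb)
  have hKabc : K ≤ a * b * c := hKab.trans (le_mul_of_one_le_right (by linarith) hc)
  have hKabcd : K ≤ a * b * c * d := hKabc.trans (le_mul_of_one_le_right (by linarith) hd)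
  have key : ∀ s t : Fin 5 → ℕ, (∀ i, s i ≤ E) → (∀ i, t i ≤ E) →
      (s 4 < t 4 ∨ s 4 = t 4 ∧ (s 3 < t 3 ∨ s 3 = t 3 ∧ (s 2 < t 2 ∨ s 2 = t 2 ∧
        (s 1 < t 1 ∨ s 1 = t 1 ∧ s 0 < t 0)))) →
      K * ∏ i, p i ^ s i ≤ ∏ i, p i ^ t i := by
    intro s t hs ht h
    rw [Fin.prod_univ_five, Fin.prod_univ_five]
    change K * (a ^ s 0 * b ^ s 1 * c ^ s 2 * d ^ s 3 * e ^ s 4) ≤
      a ^ t 0 * b ^ t 1 * c ^ t 2 * d ^ t 3 * e ^ t 4
    have pa : ∀ k, 1 ≤ a ^ k := fun k => one_le_pow₀ ha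
    have pb : ∀ k, 1 ≤ b ^ k := fun k => one_le_pow₀ hb
    have pc : ∀ k, 1 ≤ c ^ k := fun k => one_le_pow₀ hc
    have pd : ∀ k, 1 ≤ d ^ k := fun k => one_le_pow₀ hd
    have pe : ∀ k, 1 ≤ e ^ k := fun k => one_le_pow₀ he
    have qa : a ^ s 0 ≤ a ^ E := pow_le_pow_right₀ ha (hs 0)
    have qb : b ^ s 1 ≤ b ^ E := pow_le_pow_right₀ hb (hs 1)
    have qc : c ^ s 2 ≤ c ^ E := pow_le_pow_right₀ hc (hs 2)
    have qd : d ^ s 3 ≤ d ^ E := pow_le_pow_right₀ hd (hs 3)
    have w1 : a ^ s 0 ≤ a ^ E := qa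
    have w2 : a ^ s 0 * b ^ s 1 ≤ (a * b) ^ E := by
      rw [mul_pow]
      exact mul_le_mul qa qb (by positivity) (by positivity)
    have w3 : a ^ s 0 * b ^ s 1 * c ^ s 2 ≤ (a * b * c) ^ E := by
      rw [mul_pow]
      exact mul_le_mul w2 qc (by positivity) (by positivity)
    have w4 : a ^ s 0 * b ^ s 1 * c ^ s 2 * d ^ s 3 ≤ (a * b * c * d) ^ E := by
      rw [mul_pow]
      exact mul_le_mul w3 qd (by positivity) (by positivity)
    rcases h with h | ⟨e4, h | ⟨e3, h | ⟨e2, h | ⟨e1, h⟩⟩⟩⟩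
    · have := reg_step hKabcd habcd h4 (by positivity) w4 h
      refine this.trans ?_
      have h5 : 1 ≤ a ^ t 0 * b ^ t 1 * c ^ t 2 * d ^ t 3 :=
        one_le_mul_of_one_le_of_one_le (one_le_mul_of_one_le_of_one_le
          (one_le_mul_of_one_le_of_one_le (pa _) (pb _)) (pc _)) (pd _)
      exact le_mul_of_one_le_left (by positivity) h5
    · rw [e4, ← mul_assoc]
      refine mul_le_mul_of_nonneg_right ?_ (by positivity)
      have := reg_step hKabc habc h3 (by positivity) w3 h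
      refine this.trans ?_
      have h5 : 1 ≤ a ^ t 0 * b ^ t 1 * c ^ t 2 :=
        one_le_mul_of_one_le_of_one_le
          (one_le_mul_of_one_le_of_one_le (pa _) (pb _)) (pc _)
      exact le_mul_of_one_le_left (by positivity) h5
    · rw [e4, e3, ← mul_assoc, ← mul_assoc]
      refine mul_le_mul_of_nonneg_right ?_ (by positivity)
      refine mul_le_mul_of_nonneg_right ?_ (by positivity)
      have := reg_step hKab hab h2 (by positivity) w2 h
      refine this.trans ?_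
      have h5 : 1 ≤ a ^ t 0 * b ^ t 1 := one_le_mul_of_one_le_of_one_le (pa _) (pb _)
      exact le_mul_of_one_le_left (by positivity) h5
    · rw [e4, e3, e2, ← mul_assoc, ← mul_assoc, ← mul_assoc]
      refine mul_le_mul_of_nonneg_right ?_ (by positivity)
      refine mul_le_mul_of_nonneg_right ?_ (by positivity)
      refine mul_le_mul_of_nonneg_right ?_ (by positivity)
      have := reg_step h0 ha h1 (by positivity) w1 h
      refine this.trans ?_
      exact le_mul_of_one_le_left (by positivity) (pa _)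
    · rw [e4, e3, e2, e1, ← mul_assoc, ← mul_assoc, ← mul_assoc, ← mul_assoc]
      refine mul_le_mul_of_nonneg_right ?_ (by positivity)
      refine mul_le_mul_of_nonneg_right ?_ (by positivity)
      refine mul_le_mul_of_nonneg_right ?_ (by positivity)
      refine mul_le_mul_of_nonneg_right ?_ (by positivity)
      calc K * a ^ s 0 ≤ a * a ^ s 0 := mul_le_mul_of_nonneg_right h0 (by positivity)
        _ = a ^ (s 0 + 1) := by ring
        _ ≤ a ^ t 0 := pow_le_pow_right₀ ha h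
  have hcases : (s 4 < t 4 ∨ s 4 = t 4 ∧ (s 3 < t 3 ∨ s 3 = t 3 ∧ (s 2 < t 2 ∨ s 2 = t 2 ∧
        (s 1 < t 1 ∨ s 1 = t 1 ∧ s 0 < t 0)))) ∨
      (t 4 < s 4 ∨ t 4 = s 4 ∧ (t 3 < s 3 ∨ t 3 = s 3 ∧ (t 2 < s 2 ∨ t 2 = s 2 ∧
        (t 1 < s 1 ∨ t 1 = s 1 ∧ t 0 < s 0)))) := by
    by_contra hcon
    apply hst
    funext i
    fin_cases i <;> simp only [Fin.zero_eta, Fin.mk_one, Fin.reduceFinMk] <;> omega
  rcases hcases with h | h
  · exact Or.inl (key s t hs ht h)
  · exact Or.inr (key t s ht hs h)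

/-- a non-zero integer polynomial of size class `(C,E)` has no zero in `Reg (C+1) (E+1)`:
the lexicographically leading monomial (with `p₄` most significant) dominates. -/
theorem ne_zero_of_mem_Reg {P : PP} (hP : P ≠ 0) {C : ℝ} {E : ℕ} (hB : Bd P C E)
    {p : Fin 5 → ℝ} (hp : p ∈ Reg (C + 1) (E + 1)) : xhom p P ≠ 0 := by
  classical
  have hne : P.support.Nonempty := by
    rw [Finset.nonempty_iff_ne_empty]
    intro h
    exact hP (MvPolynomial.support_eq_empty.mp h)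
  obtain ⟨t, ht, hmax⟩ := Finset.exists_max_image P.support (fun s => ∏ i, p i ^ s i) hne
  have hsum : ∑ s ∈ P.support, |((P.coeff s : ℤ) : ℝ)| ≤ C := by
    have := hB 1 le_rfl
    simpa [HasNu.nu, nuP] using this
  have hct : 1 ≤ |((P.coeff t : ℤ) : ℝ)| := by
    have := MvPolynomial.mem_support_iff.mp ht
    exact_mod_cast Int.one_le_abs this
  have hC1 : 1 ≤ C := by
    refine hct.trans (le_trans ?_ hsum)
    exact Finset.single_le_sum (f := fun s => |((P.coeff s : ℤ) : ℝ)|)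
      (fun s _ => abs_nonneg _) ht
  have hdeg : ∀ s ∈ P.support, ∀ i, s i ≤ E := by
    intro s hs i
    have h1 := hB.totalDegree_le
    have h2 := MvPolynomial.le_totalDegree hs
    have h3 : s i ≤ s.sum fun _ e => e := by
      by_cases hi : i ∈ s.support
      · exact Finset.single_le_sum (f := fun j => s j) (fun _ _ => Nat.zero_le _) hi
      · rw [Finsupp.notMem_support_iff] at hi
        omega
    omega
  have hp0 : 1 ≤ p 0 := by have := hp.1; linarith
  have hp1 : 1 ≤ p 1 := (one_le_pow₀ hp0).trans hp.2.1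
  have hp2 : 1 ≤ p 2 :=
    (one_le_pow₀ (one_le_mul_of_one_le_of_one_le hp0 hp1)).trans hp.2.2.1
  have hp3 : 1 ≤ p 3 :=
    (one_le_pow₀ (one_le_mul_of_one_le_of_one_le
      (one_le_mul_of_one_le_of_one_le hp0 hp1) hp2)).trans hp.2.2.2.1
  have hp4 : 1 ≤ p 4 :=
    (one_le_pow₀ (one_le_mul_of_one_le_of_one_le (one_le_mul_of_one_le_of_one_le
      (one_le_mul_of_one_le_of_one_le hp0 hp1) hp2) hp3)).trans hp.2.2.2.2
  have hpos : ∀ i, 0 < p i := by
    intro i
    fin_cases i <;> simp only [Fin.zero_eta, Fin.mk_one, Fin.reduceFinMk] <;> linarith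
  have hmpos : ∀ s : Fin 5 →₀ ℕ, 0 < ∏ i, p i ^ s i := fun s =>
    Finset.prod_pos fun i _ => pow_pos (hpos i) _
  have hcmp : ∀ s ∈ P.support.erase t, (C + 1) * ∏ i, p i ^ s i ≤ ∏ i, p i ^ t i := by
    intro s hs
    rw [Finset.mem_erase] at hs
    rcases reg_mono_aux (K := C + 1) (by linarith) hp (hdeg s hs.2) (hdeg t ht)
      (fun h => hs.1 (DFunLike.coe_injective h)) with h | h
    · exact h
    · have h1 := hmax s hs.2
      have h2 := hmpos s
      have h3 := hmpos t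
      nlinarith
  have hev : xhom p P = ∑ s ∈ P.support, ((P.coeff s : ℤ) : ℝ) * ∏ i, p i ^ s i := by
    rw [xhom, MvPolynomial.coe_eval₂Hom, MvPolynomial.eval₂_eq']
    rfl
  rw [hev, ← Finset.add_sum_erase _ _ ht]
  intro h0
  have hA : |∑ s ∈ P.support.erase t, ((P.coeff s : ℤ) : ℝ) * ∏ i, p i ^ s i| ≤
      (∑ s ∈ P.support.erase t, |((P.coeff s : ℤ) : ℝ)|) * ((∏ i, p i ^ t i) / (C + 1)) := by
    refine (Finset.abs_sum_le_sum_abs _ _).trans ?_
    rw [Finset.sum_mul]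
    refine Finset.sum_le_sum fun s hs => ?_
    rw [abs_mul, abs_of_pos (hmpos s)]
    refine mul_le_mul_of_nonneg_left ?_ (abs_nonneg _)
    rw [le_div_iff₀ (by linarith)]
    have := hcmp s hs
    linarith
  have hB' : ∑ s ∈ P.support.erase t, |((P.coeff s : ℤ) : ℝ)| ≤ C - 1 := by
    have := Finset.add_sum_erase P.support (fun s => |((P.coeff s : ℤ) : ℝ)|) ht
    linarith
  have hT := hmpos t
  have h1 : |((P.coeff t : ℤ) : ℝ) * ∏ i, p i ^ t i| =
      |∑ s ∈ P.support.erase t, ((P.coeff s : ℤ) : ℝ) * ∏ i, p i ^ s i| := by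
    rw [← abs_neg (∑ s ∈ P.support.erase t, ((P.coeff s : ℤ) : ℝ) * ∏ i, p i ^ s i)]
    congr 1
    linarith
  rw [abs_mul, abs_of_pos hT] at h1
  have h2 : (∏ i, p i ^ t i) ≤ (C - 1) * ((∏ i, p i ^ t i) / (C + 1)) := by
    calc (∏ i, p i ^ t i) = 1 * ∏ i, p i ^ t i := by ring
      _ ≤ |((P.coeff t : ℤ) : ℝ)| * ∏ i, p i ^ t i :=
        mul_le_mul_of_nonneg_right hct hT.le
      _ ≤ _ := by rw [h1]; exact hA
      _ ≤ _ := mul_le_mul_of_nonneg_right hB' (by positivity)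
  have h3 : (C - 1) * ((∏ i, p i ^ t i) / (C + 1)) = (C - 1) / (C + 1) * ∏ i, p i ^ t i := by
    ring
  rw [h3] at h2
  have h4 : (C - 1) / (C + 1) < 1 := by
    rw [div_lt_one (by linarith)]
    linarith
  nlinarith

/-- the region is connected (it is convex in logarithmic coordinates) -/
theorem isPreconnected_Reg {C : ℝ} (hC : 1 ≤ C) (E : ℕ) : IsPreconnected (Reg C E) := by
  set K : Set (Fin 5 → ℝ) := {u | Real.log C ≤ u 0 ∧ (E : ℝ) * u 0 ≤ u 1 ∧
    (E : ℝ) * (u 0 + u 1) ≤ u 2 ∧ (E : ℝ) * (u 0 + u 1 + u 2) ≤ u 3 ∧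
    (E : ℝ) * (u 0 + u 1 + u 2 + u 3) ≤ u 4} with hK
  have hconv : Convex ℝ K := by
    rintro u ⟨hu0, hu1, hu2, hu3, hu4⟩ v ⟨hv0, hv1, hv2, hv3, hv4⟩ s t hs ht hst
    have hcomb : ∀ x y x' y' : ℝ, x ≤ y → x' ≤ y' → s * x + t * x' ≤ s * y + t * y' :=
      fun x y x' y' h h' => add_le_add (mul_le_mul_of_nonneg_left h hs)
        (mul_le_mul_of_nonneg_left h' ht)
    refine ⟨?_, ?_, ?_, ?_, ?_⟩ <;>
      simp only [Pi.add_apply, Pi.smul_apply, smul_eq_mul]
    · have := hcomb _ _ _ _ hu0 hv0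
      calc Real.log C = s * Real.log C + t * Real.log C := by rw [← add_mul, hst, one_mul]
        _ ≤ _ := this
    · have := hcomb _ _ _ _ hu1 hv1
      linarith
    · have := hcomb _ _ _ _ hu2 hv2
      linarith
    · have := hcomb _ _ _ _ hu3 hv3
      linarith
    · have := hcomb _ _ _ _ hu4 hv4
      linarith
  have himg : Reg C E = (fun u : Fin 5 → ℝ => fun i => Real.exp (u i)) '' K := by
    ext p
    constructor
    · rintro ⟨h0, h1, h2, h3, h4⟩
      have ha : 1 ≤ p 0 := hC.trans h0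
      have hb : 1 ≤ p 1 := (one_le_pow₀ ha).trans h1
      have hab : 1 ≤ p 0 * p 1 := one_le_mul_of_one_le_of_one_le ha hb
      have hc : 1 ≤ p 2 := (one_le_pow₀ hab).trans h2
      have habc : 1 ≤ p 0 * p 1 * p 2 := one_le_mul_of_one_le_of_one_le hab hc
      have hd : 1 ≤ p 3 := (one_le_pow₀ habc).trans h3
      have habcd : 1 ≤ p 0 * p 1 * p 2 * p 3 := one_le_mul_of_one_le_of_one_le habc hd
      have he : 1 ≤ p 4 := (one_le_pow₀ habcd).trans h4
      refine ⟨fun i => Real.log (p i), ⟨?_, ?_, ?_, ?_, ?_⟩, ?_⟩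
      · exact Real.log_le_log (by linarith) h0
      · have := Real.log_le_log (by positivity) h1
        rwa [Real.log_pow] at this
      · have := Real.log_le_log (by positivity) h2
        rwa [Real.log_pow, Real.log_mul (by positivity) (by positivity)] at this
      · have := Real.log_le_log (by positivity) h3
        rwa [Real.log_pow, Real.log_mul (by positivity) (by positivity),
          Real.log_mul (by positivity) (by positivity)] at this
      · have := Real.log_le_log (by positivity) h4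
        rwa [Real.log_pow, Real.log_mul (by positivity) (by positivity),
          Real.log_mul (by positivity) (by positivity),
          Real.log_mul (by positivity) (by positivity)] at this
      · funext i
        have : 0 < p i := by
          fin_cases i <;> simp only [Fin.zero_eta, Fin.mk_one, Fin.reduceFinMk] <;> linarith
        simp only [Real.exp_log this]
    · rintro ⟨u, ⟨h0, h1, h2, h3, h4⟩, rfl⟩
      refine ⟨?_, ?_, ?_, ?_, ?_⟩ <;> simp only
      · rw [← Real.log_le_iff_le_exp (by linarith)]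
        exact h0
      · rw [← Real.exp_nat_mul]
        exact Real.exp_le_exp.mpr h1
      · rw [← Real.exp_add, ← Real.exp_nat_mul]
        exact Real.exp_le_exp.mpr h2
      · rw [← Real.exp_add, ← Real.exp_add, ← Real.exp_nat_mul]
        exact Real.exp_le_exp.mpr h3
      · rw [← Real.exp_add, ← Real.exp_add, ← Real.exp_add, ← Real.exp_nat_mul]
        exact Real.exp_le_exp.mpr h4
  rw [himg]
  refine hconv.isPreconnected.image _ ?_
  exact (continuous_pi fun i => Real.continuous_exp.comp (continuous_apply i)).continuousOn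

theorem Reg_mono {C C' : ℝ} {E E' : ℕ} (hC' : 1 ≤ C') (hC : C' ≤ C) (hE : E' ≤ E) :
    Reg C E ⊆ Reg C' E' := by
  rintro p ⟨h0, h1, h2, h3, h4⟩
  have ha : 1 ≤ p 0 := (hC'.trans hC).trans h0
  have hb : 1 ≤ p 1 := (one_le_pow₀ ha).trans h1
  have hab : 1 ≤ p 0 * p 1 := one_le_mul_of_one_le_of_one_le ha hb
  have hc : 1 ≤ p 2 := (one_le_pow₀ hab).trans h2
  have habc : 1 ≤ p 0 * p 1 * p 2 := one_le_mul_of_one_le_of_one_le hab hc
  have hd : 1 ≤ p 3 := (one_le_pow₀ habc).trans h3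
  have habcd : 1 ≤ p 0 * p 1 * p 2 * p 3 := one_le_mul_of_one_le_of_one_le habc hd
  exact ⟨hC.trans h0, (pow_le_pow_right₀ ha hE).trans h1, (pow_le_pow_right₀ hab hE).trans h2,
    (pow_le_pow_right₀ habc hE).trans h3, (pow_le_pow_right₀ habcd hE).trans h4⟩

/-- all coordinates are at least `C` (if `E ≥ 1`) -/
theorem Reg_le {C : ℝ} {E : ℕ} (hC : 1 ≤ C) (hE : 1 ≤ E) {p : Fin 5 → ℝ} (hp : p ∈ Reg C E)
    (i : Fin 5) : C ≤ p i := by
  obtain ⟨h0, h1, h2, h3, h4⟩ := Reg_mono hC le_rfl hE hp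
  rw [pow_one] at h1 h2 h3 h4
  have ha : 1 ≤ p 0 := hC.trans h0
  have hb : 1 ≤ p 1 := ha.trans h1
  have hab : p 0 ≤ p 0 * p 1 := le_mul_of_one_le_right (by linarith) hb
  have hc : 1 ≤ p 2 := by linarith
  have habc : p 0 * p 1 ≤ p 0 * p 1 * p 2 := le_mul_of_one_le_right (by linarith) hc
  have hd : 1 ≤ p 3 := by linarith
  have habcd : p 0 * p 1 * p 2 ≤ p 0 * p 1 * p 2 * p 3 :=
    le_mul_of_one_le_right (by linarith) hd
  fin_cases i <;> simp only [Fin.zero_eta, Fin.mk_one, Fin.reduceFinMk] <;> linarith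

theorem Reg_pow_lt {C : ℝ} {E k : ℕ} (hC : 2 ≤ C) (hk : k < E) {p : Fin 5 → ℝ}
    (hp : p ∈ Reg C E) : p 0 ^ k < p 4 := by
  obtain ⟨h0, h1, h2, h3, h4⟩ := hp
  have ha : 1 < p 0 := by linarith
  have hb : 1 ≤ p 1 := (one_le_pow₀ ha.le).trans h1
  have hab : 1 ≤ p 0 * p 1 := one_le_mul_of_one_le_of_one_le ha.le hb
  have hc : 1 ≤ p 2 := (one_le_pow₀ hab).trans h2
  have habc : 1 ≤ p 0 * p 1 * p 2 := one_le_mul_of_one_le_of_one_le hab hc
  have hd : 1 ≤ p 3 := (one_le_pow₀ habc).trans h3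
  have h5 : p 0 ≤ p 0 * p 1 * p 2 * p 3 := by
    have e1 : p 0 ≤ p 0 * p 1 := le_mul_of_one_le_right (by linarith) hb
    have e2 : p 0 * p 1 ≤ p 0 * p 1 * p 2 := le_mul_of_one_le_right (by linarith) hc
    have e3 : p 0 * p 1 * p 2 ≤ p 0 * p 1 * p 2 * p 3 :=
      le_mul_of_one_le_right (by linarith) hd
    linarith
  calc p 0 ^ k < p 0 ^ E := pow_lt_pow_right₀ ha hk
    _ ≤ (p 0 * p 1 * p 2 * p 3) ^ E := pow_le_pow_left₀ (by linarith) h5 E
    _ ≤ p 4 := h4

/-- successive choice: a property that holds for "nested large" parameters holds at some point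
of the region -/
theorem exists_mem_Reg {C : ℝ} {E : ℕ} {P : (Fin 5 → ℝ) → Prop}
    (h : ∀ᶠ a in Filter.atTop, ∀ᶠ b in Filter.atTop, ∀ᶠ c in Filter.atTop,
      ∀ᶠ d in Filter.atTop, ∀ᶠ e in Filter.atTop, P ![a, b, c, d, e]) :
    ∃ p ∈ Reg C E, P p := by
  obtain ⟨a, ha, hCa⟩ := (h.and (Filter.eventually_ge_atTop C)).exists
  obtain ⟨b, hb, hCb⟩ := (ha.and (Filter.eventually_ge_atTop (a ^ E))).exists
  obtain ⟨c, hc, hCc⟩ := (hb.and (Filter.eventually_ge_atTop ((a * b) ^ E))).exists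
  obtain ⟨d, hd, hCd⟩ := (hc.and (Filter.eventually_ge_atTop ((a * b * c) ^ E))).exists
  obtain ⟨e, he, hCe⟩ := (hd.and (Filter.eventually_ge_atTop ((a * b * c * d) ^ E))).exists
  exact ⟨![a, b, c, d, e], ⟨hCa, hCb, hCc, hCd, hCe⟩, he⟩

/-- for fixed first two coordinates `a,b` (in the region) there are region points with third
coordinate as large as we like -/
theorem exists_mem_Reg_third {C : ℝ} {E : ℕ} {a b : ℝ} (ha : C ≤ a) (hb : a ^ E ≤ b) (c₀ : ℝ) :
    ∃ p ∈ Reg C E, p 0 = a ∧ p 1 = b ∧ c₀ ≤ p 2 :=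
  ⟨![a, b, max c₀ ((a * b) ^ E), (a * b * max c₀ ((a * b) ^ E)) ^ E,
    (a * b * max c₀ ((a * b) ^ E) * (a * b * max c₀ ((a * b) ^ E)) ^ E) ^ E],
    ⟨ha, hb, le_max_right _ _, le_rfl, le_rfl⟩, rfl, rfl, le_max_left _ _⟩

end Crest.Agent.R316
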