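import Crest.Agent.R316.Ana.Spec
import Crest.Agent.R316.Ana.Region

/-!
# R316 / Ana / OpenClosed  (task B6)
On `Reg C E` (large `C`, `E`) the predicate `EE M f` is locally constant, hence constant.
-/

set_option autoImplicit false
set_option maxHeartbeats 400000

namespace Crest.Agent.R316

open MvPolynomial Topology Filter

namespace OC

variable {n : ℕ}

/-- value of a two-level polynomial with parameters in `Fin 5 → ℝ` -/
noncomputable def val (P : MvPolynomial (Fin n) PP) (q : (Fin 5 → ℝ) × (Fin n → ℝ)) : ℝ :=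
  eval q.2 (map (xhom q.1) P)

theorem contDiff_xhom {σ : Type*} [Fintype σ] (P : MvPolynomial σ ℤ) :
    ContDiff ℝ 1 (fun x : σ → ℝ => xhom x P) := by
  induction P using MvPolynomial.induction_on with
  | C a => simpa [xhom] using contDiff_const
  | add p q hp hq => simpa [map_add] using hp.add hq
  | mul_X p i hp =>
    have : ContDiff ℝ 1 (fun x : σ → ℝ => x i) := contDiff_apply ℝ ℝ i
    simpa [xhom] using hp.mul this

theorem contDiff_val (P : MvPolynomial (Fin n) PP) : ContDiff ℝ 1 (val P) := by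
  unfold val
  induction P using MvPolynomial.induction_on with
  | C a =>
    have h := (contDiff_xhom a).comp
      (contDiff_fst : ContDiff ℝ 1 (Prod.fst : (Fin 5 → ℝ) × (Fin n → ℝ) → (Fin 5 → ℝ)))
    simpa [Function.comp_def] using h
  | add p q hp hq => simpa [map_add] using hp.add hq
  | mul_X p i hp =>
    have h1 : ContDiff ℝ 1 (fun q : (Fin 5 → ℝ) × (Fin n → ℝ) => q.2 i) :=
      (contDiff_apply ℝ ℝ i).comp
        (contDiff_snd : ContDiff ℝ 1 (Prod.snd : (Fin 5 → ℝ) × (Fin n → ℝ) → (Fin n → ℝ)))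
    simpa [map_mul] using hp.mul h1

/-- derivative of a polynomial function along a line -/
theorem hasDerivAt_line (P : MvPolynomial (Fin n) ℝ) (x v : Fin n → ℝ) :
    HasDerivAt (fun t : ℝ => eval (x + t • v) P) (∑ j, eval x (pderiv j P) * v j) 0 := by
  induction P using MvPolynomial.induction_on with
  | C a => simpa using hasDerivAt_const (0 : ℝ) a
  | add p q hp hq =>
    have e1 : (fun t : ℝ => eval (x + t • v) (p + q)) =
        (fun t : ℝ => eval (x + t • v) p) + fun t : ℝ => eval (x + t • v) q := by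
      funext t; simp
    rw [e1]
    refine (hp.add hq).congr_deriv ?_
    simp [add_mul, Finset.sum_add_distrib]
  | mul_X p i hp =>
    have h1 : HasDerivAt (fun t : ℝ => (x + t • v) i) (v i) 0 := by
      simpa using (((hasDerivAt_id (0 : ℝ)).mul_const (v i)).const_add (x i))
    have e1 : (fun t : ℝ => eval (x + t • v) (p * X i)) =
        (fun t : ℝ => eval (x + t • v) p) * fun t : ℝ => (x + t • v) i := by
      funext t; simp
    rw [e1]
    refine (hp.mul h1).congr_deriv ?_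
    simp only [Pi.add_apply, zero_smul, add_zero, smul_eq_mul,
        Derivation.leibniz, pderiv_X, map_add, map_mul, eval_X]
    rw [Finset.sum_mul]
    have : ∀ j, (eval x p * eval x (Pi.single (M := fun _ => MvPolynomial (Fin n) ℝ) j 1 i) +
        x i * eval x ((pderiv j) p)) * v j
        = (eval x ((pderiv j) p)) * v j * x i + (if j = i then eval x p * v i else 0) := by
      intro j
      by_cases h : j = i
      · subst h; simp; ring
      · simp [h, Ne.symm h]; ring
    simp [this, Finset.sum_add_distrib]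

/-- the two-level polynomial `X_i^m - outG_i` -/
noncomputable def S (M : ℕ) (f : Zxy n) (i : Fin n) : MvPolynomial (Fin n) PP :=
  X i ^ (2 * M - 1) - outG f i

theorem map_S (M : ℕ) (f : Zxy n) (i : Fin n) (p : Fin 5 → ℝ) :
    map (xhom p) (S M f i) = X i ^ (2 * M - 1) - gO p f i := by
  simp [S, gO]

theorem val_S (M : ℕ) (f : Zxy n) (i : Fin n) (q : (Fin 5 → ℝ) × (Fin n → ℝ)) :
    val (S M f i) q = q.2 i ^ (2 * M - 1) - eval q.2 (gO q.1 f i) := by
  simp [val, map_S]

theorem msol_iff_val (M : ℕ) (f : Zxy n) (q : (Fin 5 → ℝ) × (Fin n → ℝ)) :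
    msol (2 * M - 1) (gO q.1 f) q.2 ↔ ∀ i, val (S M f i) q = 0 := by
  unfold msol
  refine forall_congr' fun i => ?_
  rw [val_S, sub_eq_zero]

/-- the map whose local surjectivity gives openness -/
noncomputable def FF (M : ℕ) (f : Zxy n) (q : (Fin 5 → ℝ) × (Fin n → ℝ)) :
    (Fin 5 → ℝ) × (Fin n → ℝ) := (q.1, fun i => val (S M f i) q)

theorem contDiff_FF (M : ℕ) (f : Zxy n) : ContDiff ℝ 1 (FF M f) :=
  contDiff_fst.prodMk (contDiff_pi.2 fun i => contDiff_val (S M f i))

theorem FF_surj (M : ℕ) (f : Zxy n) (p : Fin 5 → ℝ) (x : Fin n → ℝ)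
    (hdet : eval x (mjac (2 * M - 1) (gO p f)) ≠ 0)
    {F' : (Fin 5 → ℝ) × (Fin n → ℝ) →L[ℝ] (Fin 5 → ℝ) × (Fin n → ℝ)}
    (hF : HasFDerivAt (FF M f) F' (p, x)) : F'.range = ⊤ := by
  set J : Matrix (Fin n) (Fin n) ℝ :=
    Matrix.of fun i j => eval x (pderiv j (X i ^ (2 * M - 1) - gO p f i)) with hJ
  have hJdet : J.det ≠ 0 := by
    have : eval x (mjac (2 * M - 1) (gO p f)) = J.det := by
      unfold mjac
      rw [RingHom.map_det]
      rfl
    rwa [← this]
  have hline : ∀ w, HasDerivAt (fun t : ℝ => FF M f ((p, x) + t • w)) (F' w) 0 := fun w =>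
    hF.hasLineDerivAt w
  have h1 : ∀ w, (F' w).1 = w.1 := by
    intro w
    have h := (ContinuousLinearMap.fst ℝ (Fin 5 → ℝ) (Fin n → ℝ)).hasFDerivAt.comp_hasDerivAt
      (0 : ℝ) (hline w)
    have h' : HasDerivAt (fun t : ℝ => p + t • w.1) (w.1) 0 := by
      simpa using ((hasDerivAt_id (0 : ℝ)).smul_const w.1).const_add p
    exact h.unique h'
  have h2 : ∀ v, (F' (0, v)).2 = J.mulVec v := by
    intro v
    have h := (ContinuousLinearMap.snd ℝ (Fin 5 → ℝ) (Fin n → ℝ)).hasFDerivAt.comp_hasDerivAt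
      (0 : ℝ) (hline (0, v))
    have h' : HasDerivAt (fun t : ℝ => fun i => val (S M f i) (p, x + t • v)) (J.mulVec v) 0 := by
      rw [hasDerivAt_pi]
      intro i
      have := hasDerivAt_line (map (xhom p) (S M f i)) x v
      refine this.congr_deriv ?_
      simp only [map_S]
      rfl
    have e : (⇑(ContinuousLinearMap.snd ℝ (Fin 5 → ℝ) (Fin n → ℝ)) ∘
        fun t : ℝ => FF M f ((p, x) + t • ((0 : Fin 5 → ℝ), v))) =
        fun t : ℝ => fun i => val (S M f i) (p, x + t • v) := by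
      funext t
      simp [FF]
    rw [e] at h
    exact h.unique h'
  rw [LinearMap.range_eq_top]
  rintro ⟨u, w⟩
  refine ⟨(u, J⁻¹.mulVec (w - (F' (u, 0)).2)), ?_⟩
  have e : F' (u, J⁻¹.mulVec (w - (F' (u, 0)).2)) =
      F' (u, 0) + F' (0, J⁻¹.mulVec (w - (F' (u, 0)).2)) := by
    rw [← map_add]; simp
  refine Prod.ext ?_ ?_
  · exact h1 _
  · change (F' _).2 = w
    rw [e, Prod.snd_add, h2, Matrix.mulVec_mulVec, Matrix.mul_nonsing_inv _
      (isUnit_iff_ne_zero.2 hJdet), Matrix.one_mulVec]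
    abel

end OC

open OC

variable {n : ℕ} [NeZero n]

/-- openness: at a solution with non-zero Jacobian the inverse function theorem gives nearby
solutions; the other conditions are open -/
theorem EE_open {f : Zxy n} (hf4 : f.totalDegree ≤ 4)
    (hf0 : ∀ x y : Fin n → ℝ, 0 ≤ ev2 x y f) {M : ℕ} (hM : (outQ f).totalDegree < M)
    {p : Fin 5 → ℝ} (hpos : ∀ i, 0 < p i) (hdisc : xhom p (outDisc M f) ≠ 0)
    (h : EE M f p) : ∀ᶠ q in nhds p, EE M f q := by
  obtain ⟨x, hx, hb, hH⟩ := h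
  have hdet : eval x (mjac (2 * M - 1) (gO p f)) ≠ 0 := by
    intro h0
    apply hdisc
    rw [xhom_outDisc p hM]
    exact mnorm_eq_zero_of_msol (gO_totalDegree_lt p hM) hx h0
  have hstrict : HasStrictFDerivAt (FF M f) (fderiv ℝ (FF M f) (p, x)) (p, x) :=
    ((contDiff_FF M f).contDiffAt).hasStrictFDerivAt (by norm_num)
  have hsurj := FF_surj M f p x hdet hstrict.hasFDerivAt
  have hmap := hstrict.map_nhds_eq_of_surj hsurj
  have hFp : FF M f (p, x) = (p, 0) := by
    refine Prod.ext rfl ?_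
    funext i
    exact (msol_iff_val M f (p, x)).1 hx i
  set G : Set ((Fin 5 → ℝ) × (Fin n → ℝ)) :=
    {q | ∑ i, q.2 i ^ 2 < q.1 0 ^ 2 ∧ ∀ y, 0 < eval y (HI q.1 q.2 f)} with hG
  have hGm : G ∈ 𝓝 (p, x) := by
    have c1 : Continuous fun q : (Fin 5 → ℝ) × (Fin n → ℝ) => ∑ i, q.2 i ^ 2 := by fun_prop
    have c2 : Continuous fun q : (Fin 5 → ℝ) × (Fin n → ℝ) => q.1 0 ^ 2 := by fun_prop
    have e1 : ∀ᶠ q : (Fin 5 → ℝ) × (Fin n → ℝ) in 𝓝 (p, x), ∑ i, q.2 i ^ 2 < q.1 0 ^ 2 :=
      c1.continuousAt.eventually_lt c2.continuousAt hb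
    exact e1.and (isOpen_HI_pos hf0 (hpos 1) (hpos 2) hH)
  have him : FF M f '' G ∈ 𝓝 ((p, 0) : (Fin 5 → ℝ) × (Fin n → ℝ)) := by
    rw [← hFp, ← hmap]
    exact image_mem_map hGm
  have hc : Continuous fun q : Fin 5 → ℝ => ((q, 0) : (Fin 5 → ℝ) × (Fin n → ℝ)) := by fun_prop
  filter_upwards [hc.continuousAt.preimage_mem_nhds him] with q hq
  obtain ⟨⟨q', x'⟩, hq', he⟩ := hq
  have e1 : q' = q := congrArg Prod.fst he
  subst e1
  refine ⟨x', ?_, hq'.1, hq'.2⟩
  refine (msol_iff_val M f (q', x')).2 fun i => ?_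
  exact congrFun (congrArg Prod.snd he) i

/-- closedness -/
theorem EE_closed {f : Zxy n} (hf4 : f.totalDegree ≤ 4)
    (hf0 : ∀ x y : Fin n → ℝ, 0 ≤ ev2 x y f) {M : ℕ} (hM : (outQ f).totalDegree < M)
    {p : Fin 5 → ℝ} (hpos : ∀ i, 0 < p i) (h4 : p 0 ^ (2 * M - 1) < p 4)
    (h : ∃ᶠ q in nhds p, EE M f q) : EE M f p := by
  obtain ⟨q, hq, hE⟩ := exists_seq_forall_of_frequently h
  choose x hx hb hH using hE
  have hq0 : Tendsto (fun k => q k 0) atTop (𝓝 (p 0)) := (tendsto_pi_nhds.1 hq) 0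
  have hq0' : Tendsto (fun k => (q k 0) ^ 2) atTop (𝓝 (p 0 ^ 2)) := hq0.pow 2
  -- boundedness
  have hbd : ∃ R : ℝ, ∀ k, x k ∈ Metric.closedBall (0 : Fin n → ℝ) R := by
    obtain ⟨B, hB⟩ := hq0'.bddAbove_range
    refine ⟨B + 1, fun k => ?_⟩
    have hBk : (q k 0) ^ 2 ≤ B := hB ⟨k, rfl⟩
    have hBn : 0 ≤ B := (sq_nonneg _).trans hBk
    rw [mem_closedBall_zero_iff, pi_norm_le_iff_of_nonneg (by linarith)]
    intro i
    have h1 : x k i ^ 2 ≤ ∑ i, x k i ^ 2 :=
      Finset.single_le_sum (f := fun i => x k i ^ 2) (fun i _ => sq_nonneg _) (Finset.mem_univ i)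
    have h2 : x k i ^ 2 ≤ B := h1.trans ((hb k).le.trans hBk)
    rw [Real.norm_eq_abs]
    apply abs_le_of_sq_le_sq _ (by linarith)
    nlinarith
  obtain ⟨R, hR⟩ := hbd
  obtain ⟨x₀, -, φ, hφ, hlim⟩ := (isCompact_closedBall (0 : Fin n → ℝ) R).tendsto_subseq hR
  have hqφ : Tendsto (fun k => q (φ k)) atTop (𝓝 p) := hq.comp hφ.tendsto_atTop
  have hprod : Tendsto (fun k => (q (φ k), x (φ k))) atTop (𝓝 (p, x₀)) :=
    hqφ.prodMk_nhds hlim
  have hsol : msol (2 * M - 1) (gO p f) x₀ := by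
    refine (msol_iff_val M f (p, x₀)).2 fun i => ?_
    have hcv := ((contDiff_val (S M f i)).continuous.tendsto (p, x₀)).comp hprod
    refine tendsto_nhds_unique hcv ?_
    have : (val (S M f i) ∘ fun k => (q (φ k), x (φ k))) = fun _ => 0 := by
      funext k
      exact (msol_iff_val M f (q (φ k), x (φ k))).1 (hx (φ k)) i
    rw [this]
    exact tendsto_const_nhds
  have hball : ∑ i, x₀ i ^ 2 ≤ p 0 ^ 2 := by
    have c1 : Continuous fun x : Fin n → ℝ => ∑ i, x i ^ 2 := by fun_prop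
    exact le_of_tendsto_of_tendsto' ((c1.tendsto x₀).comp hlim) (hq0'.comp hφ.tendsto_atTop)
      fun k => (hb (φ k)).le
  have hHge : ∀ y, 0 ≤ eval y (HI p x₀ f) := by
    intro y
    have c0 : Continuous fun a : (Fin 5 → ℝ) × (Fin n → ℝ) => (a.1, a.2, y) :=
      continuous_fst.prodMk (continuous_snd.prodMk continuous_const)
    have c1 := (continuous_HI f).comp c0
    have c2 := (c1.tendsto (p, x₀)).comp hprod
    refine ge_of_tendsto' c2 fun k => ?_
    exact (hH (φ k) y).le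
  have hQ := QO_ne_zero_of_ball (by omega : 1 ≤ M) (hpos 0) h4 hsol hball
  rw [eval_QO p x₀ hf4] at hQ
  have hV : innerV (xhom x₀) (p 1) (p 2) f ≠ 0 := fun h0 => hQ (by rw [h0]; ring)
  have hR0 : p 0 ^ 2 - ∑ i, x₀ i ^ 2 ≠ 0 := fun h0 => hQ (by rw [h0]; ring)
  refine ⟨x₀, hsol, ?_, ?_⟩
  · rcases hball.lt_or_eq with h' | h'
    · exact h'
    · exact absurd (by rw [h']; ring) hR0
  · by_contra hcon
    exact hV (innerV_eq_zero hf4 hHge hcon)

/-- `EE` is constant on the region -/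
theorem EE_const {f : Zxy n} (hf4 : f.totalDegree ≤ 4)
    (hf0 : ∀ x y : Fin n → ℝ, 0 ≤ ev2 x y f) {M : ℕ} (hM : (outQ f).totalDegree < M)
    {C : ℝ} {E : ℕ} (hC : 2 ≤ C) (hE : 2 * M ≤ E)
    (hdisc : ∀ p ∈ Reg C E, xhom p (outDisc M f) ≠ 0) {p q : Fin 5 → ℝ}
    (hp : p ∈ Reg C E) (hq : q ∈ Reg C E) (h : EE M f p) : EE M f q := by
  have hposR : ∀ p ∈ Reg C E, ∀ i, 0 < p i := fun p hp i =>
    lt_of_lt_of_le (by linarith) (Reg_le (by linarith) (by omega) hp i)
  have hpre := isPreconnected_Reg (C := C) (by linarith) E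
  set A : Set (Fin 5 → ℝ) := {p | EE M f p} with hA
  have hcov : Reg C E ⊆ interior A ∪ interior Aᶜ := by
    intro r hr
    by_cases hEr : EE M f r
    · left
      rw [mem_interior_iff_mem_nhds]
      exact EE_open hf4 hf0 hM (hposR r hr) (hdisc r hr) hEr
    · right
      rw [mem_interior_iff_mem_nhds]
      have h4 := Reg_pow_lt hC (by omega : 2 * M - 1 < E) hr
      have := fun hfr => hEr (EE_closed hf4 hf0 hM (hposR r hr) h4 hfr)
      exact Filter.not_frequently.1 this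
  have hdisj : Disjoint (interior A) (interior Aᶜ) :=
    Disjoint.mono interior_subset interior_subset disjoint_compl_right
  have hpA : p ∈ interior A := by
    rcases hcov hp with h' | h'
    · exact h'
    · have h'' : p ∈ Aᶜ := interior_subset h'
      exact absurd h h''
  have hsub := hpre.subset_left_of_subset_union isOpen_interior isOpen_interior hdisj hcov
    ⟨p, hp, hpA⟩
  have hqA : q ∈ A := interior_subset (hsub hq)
  exact hqA

end Crest.Agent.R316
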