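import Crest.Agent.R316.Ana.InnerMin

/-!
# R316 / Ana / Spec  (task B3)
Specialisation (base change) of the concrete polynomials.
-/

set_option autoImplicit false

namespace Crest.Agent.R316

open MvPolynomial

variable {n : ℕ}

/-- base change of `V`, `D_in`, and all generic inner constructions -/
theorem map_innerG {A B : Type*} [CommRing A] [CommRing B] (θ : A →+* B) (φ : Zx n →+* A)
    (Γ Z : A) (f : Zxy n) (j : Fin n) :
    map θ (innerG φ Γ Z f j) = innerG (θ.comp φ) (θ Γ) (θ Z) f j := by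
  unfold innerG
  rw [map_sub, map_neg, map_mul, map_one, map_C, ← pderiv_map, map_map, map_mul]

theorem map_pen {A B : Type*} [CommRing A] [CommRing B] (θ : A →+* B) :
    map θ (pen A n) = pen B n := by
  unfold pen
  rw [map_sum]
  refine Finset.sum_congr rfl fun j _ => ?_
  simp [map_ofNat θ 2]

theorem map_innerH {A B : Type*} [CommRing A] [CommRing B] (θ : A →+* B) (φ : Zx n →+* A)
    (Γ Z : A) (f : Zxy n) :
    map θ (innerH φ Γ Z f) = innerH (θ.comp φ) (θ Γ) (θ Z) f := by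
  unfold innerH
  rw [map_add, map_pen, map_mul, map_sub]
  congr 2
  · rw [map_C]
    simp only [map_mul, map_ofNat, map_natCast]
  · rw [map_mul, map_C, map_map, map_one]

theorem map_innerV {A B : Type*} [CommRing A] [CommRing B] (θ : A →+* B) (φ : Zx n →+* A)
    (Γ Z : A) {f : Zxy n} (hf : f.totalDegree ≤ 4) :
    θ (innerV φ Γ Z f) = innerV (θ.comp φ) (θ Γ) (θ Z) f := by
  unfold innerV
  rw [← mnorm_map θ (innerG_totalDegree_lt φ Γ Z hf), map_innerH]
  congr 1
  funext j
  exact map_innerG θ φ Γ Z f j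

theorem map_innerD {A B : Type*} [CommRing A] [CommRing B] (θ : A →+* B) (φ : Zx n →+* A)
    (Γ Z : A) {f : Zxy n} (hf : f.totalDegree ≤ 4) :
    θ (innerD φ Γ Z f) = innerD (θ.comp φ) (θ Γ) (θ Z) f := by
  unfold innerD
  have h : (fun j => map θ (innerG φ Γ Z f j)) = innerG (θ.comp φ) (θ Γ) (θ Z) f := by
    funext j
    exact map_innerG θ φ Γ Z f j
  rw [← mnorm_map θ (innerG_totalDegree_lt φ Γ Z hf), ← mjac_map, h]

section sgn
variable {A B : Type*} [CommRing A] [CommRing B] (θ : A →+* B)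

theorem map_sgP (K e : ℕ) (t : A) : θ (sgP K e t) = sgP K e (θ t) := by
  unfold sgP
  rw [map_prod]
  refine Finset.prod_congr rfl fun k _ => ?_
  rw [map_pow, map_add, map_pow, map_ofNat]

theorem map_sgQ (K e : ℕ) (t : A) : θ (sgQ K e t) = sgQ K e (θ t) := by
  unfold sgQ
  rw [map_add, map_sgP, map_sgP, map_neg]

theorem map_testDen (K e N : ℕ) (G : ℕ → A) :
    θ (testDen K e N G) = testDen K e N (fun k => θ (G k)) := by
  unfold testDen
  rw [map_prod]
  refine Finset.prod_congr rfl fun k _ => ?_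
  rw [map_sgQ]

theorem map_testNum (K e N : ℕ) (w : ℕ → ℕ) (v : ℕ) (G : ℕ → A) :
    θ (testNum K e N w v G) = testNum K e N w v (fun k => θ (G k)) := by
  unfold testNum
  rw [map_sub, map_mul, map_testDen, map_natCast, map_sum]
  congr 1
  refine Finset.sum_congr rfl fun k _ => ?_
  rw [map_mul, map_mul, map_natCast, map_sgP, map_neg, map_prod]
  congr 1
  refine Finset.prod_congr rfl fun j _ => ?_
  rw [map_sgQ]

theorem map_testPoly (K e N : ℕ) (w : ℕ → ℕ) (v D c : ℕ) (G : ℕ → A) :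
    θ (testPoly K e N w v D c G) = testPoly K e N w v D c (fun k => θ (G k)) := by
  unfold testPoly
  simp only [map_add, map_mul, map_sub, map_pow, map_natCast, map_one, map_ofNat, map_testNum,
    map_testDen]

end sgn

theorem map_famG {R S : Type*} [CommRing R] [CommRing S] [NeZero n] (θ : R →+* S) {m : ℕ}
    {g : Fin n → MvPolynomial (Fin n) R} (hg : ∀ i, (g i).totalDegree < m) (N1 T0 : ℕ)
    (ψ : ℕ → MvPolynomial (Fin n) R) (k : ℕ) :
    map θ (famG m g N1 T0 ψ k) =
      famG m (fun i => map θ (g i)) N1 T0 (fun k => map θ (ψ k)) k := by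
  unfold famG
  by_cases h : k < N1
  · rw [if_pos h, if_pos h]
  · rw [if_neg h, if_neg h, map_add, map_mul, map_natCast, mthom_map θ hg]
    congr 1
    split_ifs <;> simp

theorem map_seedPolyS {R S : Type*} [CommRing R] [CommRing S] [NeZero n] (θ : R →+* S) {m : ℕ}
    {g : Fin n → MvPolynomial (Fin n) R} (hg : ∀ i, (g i).totalDegree < m) (t : TPar) (N1 : ℕ)
    (ψ : ℕ → MvPolynomial (Fin n) R) (s : ℕ) :
    map θ (seedPolyS m g t N1 ψ s) =
      seedPolyS m (fun i => map θ (g i)) t N1 (fun k => map θ (ψ k)) s := by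
  unfold seedPolyS seedPoly
  rw [map_testPoly]
  congr 1
  funext k
  exact map_famG θ hg N1 t.T0 ψ k

theorem map_innerN {A B : Type*} [CommRing A] [CommRing B] [NeZero n] (θ : A →+* B)
    (φ : Zx n →+* A) (Γ Z : A) (t : TPar) {f : Zxy n} (hf : f.totalDegree ≤ 4) (s : ℕ) :
    θ (innerN φ Γ Z t f s) = innerN (θ.comp φ) (θ Γ) (θ Z) t f s := by
  unfold innerN
  have h : (fun j => map θ (innerG φ Γ Z f j)) = innerG (θ.comp φ) (θ Γ) (θ Z) f := by
    funext j
    exact map_innerG θ φ Γ Z f j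
  have h2 : (fun k => map θ (psiIn φ Γ Z t.T0 f k)) = psiIn (θ.comp φ) (θ Γ) (θ Z) t.T0 f := by
    funext k
    unfold psiIn
    rw [map_sub, map_neg, map_mul, map_natCast, map_innerH, map_one]
  rw [← mnorm_map θ (innerG_totalDegree_lt φ Γ Z hf),
    map_seedPolyS θ (innerG_totalDegree_lt φ Γ Z hf), h, h2]

@[simp] theorem xhom_X {σ A : Type*} [CommRing A] (x : σ → A) (i : σ) : xhom x (X i) = x i := by
  unfold xhom; simp

@[simp] theorem xhom_C {σ A : Type*} [CommRing A] (x : σ → A) (a : ℤ) :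
    xhom x (C a) = (a : A) := by
  unfold xhom; simp

theorem xhom_comp {σ A B : Type*} [CommRing A] [CommRing B] (θ : A →+* B) (x : σ → A) :
    θ.comp (xhom x) = xhom (fun i => θ (x i)) := by
  ext i
  · simp [xhom]
  · simp [xhom]

/-- the evaluation homomorphism `ℤ[p][x] → A` at a point `(p,x)` -/
noncomputable def pxhom {A : Type*} [CommRing A] (p : Fin 5 → A) (x : Fin n → A) :
    MvPolynomial (Fin n) PP →+* A :=
  (eval x).comp (map (xhom p))

theorem pxhom_C {A : Type*} [CommRing A] (p : Fin 5 → A) (x : Fin n → A) (P : PP) :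
    pxhom p x (C P) = xhom p P := by
  simp [pxhom]

theorem pxhom_X {A : Type*} [CommRing A] (p : Fin 5 → A) (x : Fin n → A) (i : Fin n) :
    pxhom p x (X i) = x i := by
  simp [pxhom]

theorem pxhom_xlift {A : Type*} [CommRing A] (p : Fin 5 → A) (x : Fin n → A) :
    (pxhom p x).comp (xlift n) = xhom x := by
  ext i
  · simp [xlift, pxhom]
  · simp [xlift, pxhom]

/-- value of `Q_p` at a point -/
theorem eval_QO {A : Type*} [CommRing A] (p : Fin 5 → A) (x : Fin n → A) {f : Zxy n}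
    (hf : f.totalDegree ≤ 4) :
    eval x (QO p f) = (p 0 ^ 2 - ∑ i, x i ^ 2) * innerV (xhom x) (p 1) (p 2) f *
      innerD (xhom x) (p 1) (p 2) f := by
  have h : eval x (QO p f) = pxhom p x (outQ f) := rfl
  rw [h]
  unfold outQ
  rw [map_mul, map_mul, map_innerV _ _ _ _ hf, map_innerD _ _ _ _ hf, pxhom_xlift, pxhom_C,
    pxhom_C, xhom_X, xhom_X, map_sub, pxhom_C, map_sum, map_pow, xhom_X]
  simp only [map_pow, pxhom_X]

theorem gO_eq {A : Type*} [CommRing A] (p : Fin 5 → A) (f : Zxy n) (i : Fin n) :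
    gO p f i = C (p 4 * p 3) * pderiv i (QO p f ^ 2) - C (p 4) := by
  unfold gO outG QO
  rw [map_sub, map_mul, map_C, map_C, ← pderiv_map, map_pow, map_mul, xhom_X, xhom_X]

theorem totalDegree_pderiv_le {A : Type*} [CommRing A] {σ : Type*} (i : σ)
    (P : MvPolynomial σ A) : (pderiv i P).totalDegree ≤ P.totalDegree := by
  classical
  conv_lhs => rw [P.as_sum]
  rw [map_sum]
  refine (totalDegree_finsetSum _ _).trans (Finset.sup_le fun s hs => ?_)
  rw [pderiv_monomial]
  refine (totalDegree_monomial_le _ _).trans ?_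
  refine le_trans ?_ (le_totalDegree hs)
  exact Finsupp.degree_mono (tsub_le_self : s - Finsupp.single i 1 ≤ s)

theorem outG_totalDegree_lt {f : Zxy n} {M : ℕ}
    (hM : (outQ f).totalDegree < M) : ∀ i, (outG f i).totalDegree < 2 * M - 1 := by
  intro i
  unfold outG
  have h1 : (C (X 4 * X 3) * pderiv i (outQ f ^ 2) : MvPolynomial (Fin n) PP).totalDegree
      ≤ 2 * (outQ f).totalDegree := by
    refine (totalDegree_mul _ _).trans ?_
    rw [totalDegree_C, zero_add]
    exact (totalDegree_pderiv_le _ _).trans (totalDegree_pow _ _)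
  refine lt_of_le_of_lt (totalDegree_sub _ _) ?_
  rw [totalDegree_C]
  have : max (C (X 4 * X 3) * pderiv i (outQ f ^ 2) : MvPolynomial (Fin n) PP).totalDegree 0
      ≤ 2 * (outQ f).totalDegree := max_le h1 (Nat.zero_le _)
  omega

theorem gO_totalDegree_lt {A : Type*} [CommRing A] (p : Fin 5 → A) {f : Zxy n} {M : ℕ}
    (hM : (outQ f).totalDegree < M) : ∀ i, (gO p f i).totalDegree < 2 * M - 1 :=
  totalDegree_map_lt (xhom p) (outG_totalDegree_lt hM)

/-- the discriminant specialises to the norm of the Jacobian -/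
theorem xhom_outDisc {A : Type*} [CommRing A] (p : Fin 5 → A) {f : Zxy n} {M : ℕ}
    (hM : (outQ f).totalDegree < M) :
    xhom p (outDisc M f) = mnorm (2 * M - 1) (gO p f) (mjac (2 * M - 1) (gO p f)) := by
  unfold outDisc
  rw [← mnorm_map (xhom p) (outG_totalDegree_lt hM), ← mjac_map]
  rfl

/-- at a solution with `Q = 0` all coordinates satisfy `x_i^(2M-1) = -z` -/
theorem pow_eq_of_QO_eq_zero {p : Fin 5 → ℝ} {f : Zxy n} {M : ℕ} {x : Fin n → ℝ}
    (hx : msol (2 * M - 1) (gO p f) x) (hQ : eval x (QO p f) = 0) (i : Fin n) :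
    x i ^ (2 * M - 1) = -(p 4) := by
  rw [hx i, gO_eq, pow_two, Derivation.leibniz]
  simp [hQ]

/-- inside the ball a solution has `Q ≠ 0` -/
theorem QO_ne_zero_of_ball [NeZero n] {p : Fin 5 → ℝ} {f : Zxy n} {M : ℕ} {x : Fin n → ℝ}
    (hM : 1 ≤ M) (h0 : 0 < p 0) (h4 : p 0 ^ (2 * M - 1) < p 4)
    (hx : msol (2 * M - 1) (gO p f) x) (hb : ∑ i, x i ^ 2 ≤ p 0 ^ 2) :
    eval x (QO p f) ≠ 0 := by
  intro hQ
  have h := pow_eq_of_QO_eq_zero hx hQ 0
  have h1 : x 0 ^ 2 ≤ p 0 ^ 2 :=
    (Finset.single_le_sum (f := fun i => x i ^ 2) (fun i _ => sq_nonneg (x i))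
      (Finset.mem_univ 0)).trans hb
  have h2 : |x 0| ≤ p 0 := abs_le_of_sq_le_sq h1 h0.le
  have h3 : |x 0| ^ (2 * M - 1) ≤ p 0 ^ (2 * M - 1) := pow_le_pow_left₀ (abs_nonneg _) h2 _
  rw [← abs_pow, h, abs_neg] at h3
  have := le_abs_self (p 4)
  linarith

end Crest.Agent.R316
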